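import Vale.Agent.P176.Comul
import Mathlib.LinearAlgebra.Matrix.FiniteDimensional
import Mathlib.LinearAlgebra.FiniteDimensional.Basic
import Mathlib.FieldTheory.Finiteness
import Mathlib.Data.Matrix.ColumnRowPartitioned
import Mathlib.RingTheory.Finiteness.Prod
import Mathlib.RingTheory.Noetherian.Basic

/-!
# The finite-dimensional algebra
-/

namespace Vale.Agent.P176

open Matrix

variable {k : Type} [Field k]

/-- Levels paired with the two basis vectors. -/
abbrev Idx : Type := Fin 5 × Fin 2

/-- Indices of the first factor. -/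
abbrev Idx1 : Type := Fin 5 ⊕ Fin 5

/-- Indices of the second factor. -/
abbrev Idx2 : Type := Fin 5 ⊕ (Idx ⊕ Idx)

/-- Degrees of the levels. -/
def deg5 : Fin 5 → ℕ := fun j => j

/-- Degrees in `Idx`. -/
def degM : Idx → ℕ := fun c => c.1

/-- Degrees in `Idx1`. -/
def degA : Idx1 → ℕ := Sum.elim deg5 deg5

/-- Degrees in `Idx2`. -/
def degB : Idx2 → ℕ := Sum.elim deg5 (Sum.elim degM (fun c => degM c + 1))

section Graded

variable {R S T : Type} (dr : R → ℕ) (ds : S → ℕ) (dt : T → ℕ)

/-- Matrices of degree zero. -/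
def Gr (M : Matrix R S (Env k)) : Prop := ∀ i j, M i j ∈ piece k ((dr i : ℤ) - ds j)

variable {dr ds dt}

theorem Gr.add {M N : Matrix R S (Env k)} (h : Gr dr ds M) (h' : Gr dr ds N) :
    Gr dr ds (M + N) := fun i j => Submodule.add_mem _ (h i j) (h' i j)

theorem Gr.zero : Gr dr ds (0 : Matrix R S (Env k)) := fun _ _ => Submodule.zero_mem _

theorem Gr.mul [Fintype S] {M : Matrix R S (Env k)} {N : Matrix S T (Env k)} (h : Gr dr ds M)
    (h' : Gr ds dt N) : Gr dr dt (M * N) := fun i j => by
  refine Submodule.sum_mem _ fun l _ => ?_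
  have := mul_mem_piece (h i l) (h' l j)
  rwa [sub_add_sub_cancel] at this

theorem Gr.algebraMap [Fintype R] [DecidableEq R] (c : k) :
    Gr dr dr (algebraMap k (Matrix R R (Env k)) c) := fun i j => by
  rw [Algebra.algebraMap_eq_smul_one, Matrix.smul_apply]
  refine Submodule.smul_mem _ c ?_
  by_cases h : i = j
  · subst h; simp [one_mem_piece]
  · simp [Matrix.one_apply, h]

end Graded

variable (k) in
/-- Applying `comul` to every entry. -/
noncomputable def delta : Matrix (Fin 5) (Fin 5) (Env k) →ₐ[k] Matrix Idx Idx (Env k) :=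
  (Matrix.compAlgEquiv (Fin 5) (Fin 2) (Env k) k).toAlgHom.comp (comul k).mapMatrix

theorem delta_apply (M : Matrix (Fin 5) (Fin 5) (Env k)) (i j : Fin 5) (a b : Fin 2) :
    delta k M (i, a) (j, b) = comul k (M i j) a b := rfl

variable (k) in
/-- The block diagonal matrix of `theta`. -/
noncomputable def bigTheta : Matrix Idx Idx (Env k) :=
  Matrix.compAlgEquiv (Fin 5) (Fin 2) (Env k) k (Matrix.scalar (Fin 5) (theta k))

theorem bigTheta_delta_eq (M : Matrix (Fin 5) (Fin 5) (Env k)) : bigTheta k * delta k M =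
    Matrix.compAlgEquiv (Fin 5) (Fin 2) (Env k) k
      (Matrix.scalar (Fin 5) (theta k) * M.map (comul k)) := by
  rw [map_mul]; rfl

theorem bigTheta_delta_apply (M : Matrix (Fin 5) (Fin 5) (Env k)) (i j : Fin 5) (a b : Fin 2) :
    (bigTheta k * delta k M) (i, a) (j, b) = (theta k * comul k (M i j)) a b := by
  rw [bigTheta_delta_eq]
  simp [Matrix.scalar_apply, Matrix.diagonal_mul]

theorem delta_comm (M : Matrix (Fin 5) (Fin 5) (Env k)) :
    delta k M * bigTheta k = bigTheta k * delta k M := by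
  rw [bigTheta_delta_eq]
  change Matrix.compAlgEquiv (Fin 5) (Fin 2) (Env k) k (M.map (comul k)) * bigTheta k = _
  rw [bigTheta, ← map_mul]
  congr 1
  refine Matrix.ext fun i j => ?_
  rw [Matrix.scalar_apply, Matrix.mul_diagonal, Matrix.diagonal_mul, Matrix.map_apply, theta_comul]

theorem delta_gr {M : Matrix (Fin 5) (Fin 5) (Env k)} (h : Gr deg5 deg5 M) :
    Gr degM degM (delta k M) := fun ⟨i, a⟩ ⟨j, b⟩ => by
  rw [delta_apply]; exact comul_mem (h i j) a b

theorem bigTheta_delta_gr {M : Matrix (Fin 5) (Fin 5) (Env k)} (h : Gr deg5 deg5 M) :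
    Gr (fun c => degM c + 1) degM (bigTheta k * delta k M) := fun ⟨i, a⟩ ⟨j, b⟩ => by
  rw [bigTheta_delta_apply, Matrix.mul_apply]
  refine Submodule.sum_mem _ fun l _ => ?_
  have := mul_mem_piece (theta_mem a l) (comul_mem (h i j) l b)
  simp only [degM, deg5] at this ⊢
  rw [show (((i : ℕ) + 1 : ℕ) : ℤ) - ((j : ℕ) : ℤ) = 1 + (((i : ℕ) : ℤ) - ((j : ℕ) : ℤ)) by omega]
  exact this

variable (k) in
/-- The ambient algebra. -/
abbrev Amb : Type := Matrix Idx1 Idx1 (Env k) × Matrix Idx2 Idx2 (Env k)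

/-- The element with the given coordinates. -/
noncomputable def blk (x s y : Matrix (Fin 5) (Fin 5) (Env k)) (u g : Matrix Idx (Fin 5) (Env k)) :
    Amb k :=
  (fromBlocks x s 0 y,
    fromBlocks x 0 (fromRows u g) (fromBlocks (delta k y) 0 (bigTheta k * delta k s) (delta k x)))

/-- The coordinates are of degree zero. -/
def Adm (x s y : Matrix (Fin 5) (Fin 5) (Env k)) (u g : Matrix Idx (Fin 5) (Env k)) : Prop :=
  Gr deg5 deg5 x ∧ Gr deg5 deg5 s ∧ Gr deg5 deg5 y ∧ Gr degM deg5 u ∧
    Gr (fun c => degM c + 1) deg5 g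

theorem blk_mul (x s y x' s' y' : Matrix (Fin 5) (Fin 5) (Env k))
    (u g u' g' : Matrix Idx (Fin 5) (Env k)) : blk x s y u g * blk x' s' y' u' g' =
      blk (x * x') (x * s' + s * y') (y * y') (u * x' + delta k y * u')
        (g * x' + (bigTheta k * delta k s * u' + delta k x * g')) := by
  refine Prod.ext ?_ ?_
  · simp [blk, fromBlocks_multiply]
  · simp only [blk, Prod.snd_mul, fromBlocks_multiply, Matrix.mul_zero, Matrix.zero_mul, add_zero,
      zero_add, fromRows_mul, fromBlocks_mul_fromRows, map_mul, map_add, Matrix.mul_add]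
    have h1 : fromRows (u * x') (g * x') + fromRows (delta k y * u')
        (bigTheta k * delta k s * u' + delta k x * g') = fromRows (u * x' + delta k y * u')
        (g * x' + (bigTheta k * delta k s * u' + delta k x * g')) := by
      ext (i | i) j <;> simp
    have h2 : bigTheta k * delta k s * delta k y' + delta k x * (bigTheta k * delta k s') =
        bigTheta k * (delta k x * delta k s') + bigTheta k * (delta k s * delta k y') := by
      rw [← Matrix.mul_assoc (delta k x), delta_comm, Matrix.mul_assoc, Matrix.mul_assoc, add_comm]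
    rw [h1, h2]

theorem blk_add (x s y x' s' y' : Matrix (Fin 5) (Fin 5) (Env k))
    (u g u' g' : Matrix Idx (Fin 5) (Env k)) : blk x s y u g + blk x' s' y' u' g' =
      blk (x + x') (s + s') (y + y') (u + u') (g + g') := by
  refine Prod.ext ?_ ?_
  · simp [blk, fromBlocks_add]
  · simp only [blk, Prod.snd_add, fromBlocks_add, map_add, Matrix.mul_add, add_zero]
    refine congrArg (fun p => fromBlocks _ 0 p _) ?_
    ext (i | i) j <;> simp

theorem blk_algebraMap (c : k) : algebraMap k (Amb k) c =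
    blk (algebraMap k _ c) 0 (algebraMap k _ c) 0 0 := by
  refine Prod.ext ?_ ?_
  · ext (i | i) (j | j) <;> simp [blk, Matrix.algebraMap_matrix_apply]
  · simp only [blk, AlgHom.commutes, map_zero, Matrix.mul_zero, Prod.algebraMap_apply]
    ext (i | (i | i)) (j | (j | j)) <;> simp [Matrix.algebraMap_matrix_apply]

variable (k) in
/-- The counterexample algebra. -/
noncomputable def Alg : Subalgebra k (Amb k) where
  carrier := {p | ∃ x s y u g, Adm x s y u g ∧ p = blk x s y u g}
  algebraMap_mem' c :=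
    ⟨_, 0, _, 0, 0, ⟨Gr.algebraMap c, Gr.zero, Gr.algebraMap c, Gr.zero, Gr.zero⟩,
      blk_algebraMap c⟩
  add_mem' := by
    rintro _ _ ⟨x, s, y, u, g, ⟨hx, hs, hy, hu, hg⟩, rfl⟩
      ⟨x', s', y', u', g', ⟨hx', hs', hy', hu', hg'⟩, rfl⟩
    exact ⟨_, _, _, _, _, ⟨hx.add hx', hs.add hs', hy.add hy', hu.add hu', hg.add hg'⟩,
      blk_add ..⟩
  mul_mem' := by
    rintro _ _ ⟨x, s, y, u, g, ⟨hx, hs, hy, hu, hg⟩, rfl⟩
      ⟨x', s', y', u', g', ⟨hx', hs', hy', hu', hg'⟩, rfl⟩
    exact ⟨_, _, _, _, _, ⟨hx.mul hx', (hx.mul hs').add (hs.mul hy'), hy.mul hy',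
      (hu.mul hx').add ((delta_gr hy).mul hu'),
      (hg.mul hx').add (((bigTheta_delta_gr hs).mul hu').add
        (Gr.mul (ds := fun c => degM c + 1) (fun i j => by
          have := delta_gr hx i j
          rwa [show (((degM i + 1 : ℕ) : ℤ) - ((degM j + 1 : ℕ) : ℤ)) = (degM i : ℤ) - degM j
            by omega]) hg'))⟩, blk_mul ..⟩

theorem exists_eq_blk (a : Alg k) : ∃ x s y u g, Adm x s y u g ∧ (a : Amb k) = blk x s y u g := a.2

variable (k) in
/-- The first representation. -/
noncomputable def phi1 : Alg k →ₐ[k] Matrix Idx1 Idx1 (Env k) := (AlgHom.fst k _ _).comp (Alg k).val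

variable (k) in
/-- The second representation. -/
noncomputable def phi2 : Alg k →ₐ[k] Matrix Idx2 Idx2 (Env k) := (AlgHom.snd k _ _).comp (Alg k).val

variable (k) in
/-- Top left block. -/
noncomputable def phiX : Alg k →ₐ[k] Matrix (Fin 5) (Fin 5) (Env k) where
  toFun a := (phi2 k a).toBlocks₁₁
  map_one' := by rw [map_one, ← fromBlocks_one, toBlocks_fromBlocks₁₁]
  map_zero' := by rw [map_zero]; rfl
  map_add' a b := by rw [map_add]; rfl
  map_mul' a b := by
    obtain ⟨x, s, y, u, g, -, ha⟩ := exists_eq_blk a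
    obtain ⟨x', s', y', u', g', -, hb⟩ := exists_eq_blk b
    simp [phi2, ha, hb, blk_mul]
    simp [blk]
  commutes' c := by
    rw [AlgHom.commutes]
    ext i j
    simp [toBlocks₁₁, Matrix.algebraMap_matrix_apply]

variable (k) in
/-- Bottom right block of the first representation. -/
noncomputable def phiY : Alg k →ₐ[k] Matrix (Fin 5) (Fin 5) (Env k) where
  toFun a := (phi1 k a).toBlocks₂₂
  map_one' := by rw [map_one, ← fromBlocks_one, toBlocks_fromBlocks₂₂]
  map_zero' := by rw [map_zero]; rfl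
  map_add' a b := by rw [map_add]; rfl
  map_mul' a b := by
    obtain ⟨x, s, y, u, g, -, ha⟩ := exists_eq_blk a
    obtain ⟨x', s', y', u', g', -, hb⟩ := exists_eq_blk b
    simp [phi1, ha, hb, blk_mul]
    simp [blk]
  commutes' c := by
    rw [AlgHom.commutes]
    ext i j
    simp [toBlocks₂₂, Matrix.algebraMap_matrix_apply]

variable (k) in
/-- Bottom right block of the second representation. -/
noncomputable def phiM : Alg k →ₐ[k] Matrix (Idx ⊕ Idx) (Idx ⊕ Idx) (Env k) where
  toFun a := (phi2 k a).toBlocks₂₂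
  map_one' := by rw [map_one, ← fromBlocks_one, toBlocks_fromBlocks₂₂]
  map_zero' := by rw [map_zero]; rfl
  map_add' a b := by rw [map_add]; rfl
  map_mul' a b := by
    obtain ⟨x, s, y, u, g, -, ha⟩ := exists_eq_blk a
    obtain ⟨x', s', y', u', g', -, hb⟩ := exists_eq_blk b
    simp [phi2, ha, hb, blk, fromBlocks_multiply]
  commutes' c := by
    rw [AlgHom.commutes]
    ext i j
    simp [toBlocks₂₂, Matrix.algebraMap_matrix_apply]

theorem phi1_gr (a : Alg k) : Gr degA degA (phi1 k a) := by
  obtain ⟨x, s, y, u, g, ⟨hx, hs, hy, hu, hg⟩, ha⟩ := exists_eq_blk a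
  rw [show phi1 k a = fromBlocks x s 0 y from congrArg Prod.fst ha]
  rintro (i | i) (j | j)
  · exact hx i j
  · exact hs i j
  · exact Submodule.zero_mem _
  · exact hy i j

theorem phi2_gr (a : Alg k) : Gr degB degB (phi2 k a) := by
  obtain ⟨x, s, y, u, g, ⟨hx, hs, hy, hu, hg⟩, ha⟩ := exists_eq_blk a
  rw [show phi2 k a = _ from congrArg Prod.snd ha]
  rintro (i | i | i) (j | j | j)
  · exact hx i j
  · exact Submodule.zero_mem _
  · exact Submodule.zero_mem _
  · exact hu i j
  · exact delta_gr hy i j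
  · exact Submodule.zero_mem _
  · exact hg i j
  · exact bigTheta_delta_gr hs i j
  · have := delta_gr hx i j
    simp only [degB, Sum.elim_inr, blk, fromBlocks_apply₂₂] at this ⊢
    rwa [show (((degM i + 1 : ℕ) : ℤ) - ((degM j + 1 : ℕ) : ℤ)) = (degM i : ℤ) - degM j by omega]

/-- The degrees of all the entries. -/
def entryDeg : (Idx1 × Idx1) ⊕ (Idx2 × Idx2) → ℤ :=
  Sum.elim (fun p => (degA p.1 : ℤ) - degA p.2) (fun p => (degB p.1 : ℤ) - degB p.2)

variable (k) in
/-- All the entries of an element. -/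
noncomputable def entries : Alg k →ₗ[k] ((p : (Idx1 × Idx1) ⊕ (Idx2 × Idx2)) → piece k (entryDeg p))
    where
  toFun a p := ⟨p.elim (fun q => phi1 k a q.1 q.2) (fun q => phi2 k a q.1 q.2), by
    rcases p with q | q
    · exact phi1_gr a q.1 q.2
    · exact phi2_gr a q.1 q.2⟩
  map_add' a b := funext fun p => Subtype.ext (by rcases p with q | q <;> simp)
  map_smul' c a := funext fun p => Subtype.ext (by rcases p with q | q <;> simp)

/-- The algebra is finite-dimensional. -/
instance finite_alg : Module.Finite k (Alg k) := by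
  have : IsNoetherian k ((p : (Idx1 × Idx1) ⊕ (Idx2 × Idx2)) → piece k (entryDeg p)) :=
    @isNoetherian_pi k _ _ _ (fun p => ↥(piece k (entryDeg p)))
      (fun _ => Submodule.addCommGroup _) (fun _ => Submodule.module _)
      (fun p => isNoetherian_of_fg_of_noetherian _ (piece_fg (entryDeg p)))
  refine Module.Finite.of_injective (entries k) fun a b h => Subtype.ext (Prod.ext ?_ ?_)
  · ext i j
    exact congrArg Subtype.val (congrFun h (Sum.inl (i, j)))
  · ext i j
    exact congrArg Subtype.val (congrFun h (Sum.inr (i, j)))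

end Vale.Agent.P176
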