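import Vale.Agent.P176.Envelope
import Mathlib.Algebra.MvPolynomial.Basic
import Mathlib.Algebra.Module.LinearMap.Defs

namespace Vale.Agent.P176

open MvPolynomial

variable {k : Type} [Field k]

section Straightening

variable {R : Type} [Ring R] {g : Fin 5 → R} (hg : Sat g)

include hg

theorem h_mul_f_pow (a : ℕ) : g 2 * g 0 ^ a = g 0 ^ a * g 2 - (2 * a) • (g 4 * g 0 ^ a) := by
  induction a with
  | zero => simp
  | succ a ih =>
    have ht : g 4 * g 0 ^ a = g 0 ^ a * g 4 := (Commute.pow_right (hg.tc 0) a)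
    rw [pow_succ, ← mul_assoc, ih, sub_mul, smul_mul_assoc, mul_assoc (g 0 ^ a) (g 2) (g 0), hg.hf,
      mul_sub, mul_add, ← mul_assoc (g 0 ^ a) (g 4) (g 0), ← ht, ← mul_assoc (g 0 ^ a) (g 0) (g 2),
      mul_assoc (g 4) (g 0 ^ a) (g 0)]
    rw [Nat.mul_succ, add_nsmul, two_nsmul]
    abel

theorem h_mul_e_pow (c : ℕ) : g 2 * g 1 ^ c = g 1 ^ c * g 2 + (2 * c) • (g 4 * g 1 ^ c) := by
  induction c with
  | zero => simp
  | succ a ih =>
    have ht : g 4 * g 1 ^ a = g 1 ^ a * g 4 := (Commute.pow_right (hg.tc 1) a)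
    rw [pow_succ, ← mul_assoc, ih, add_mul, smul_mul_assoc, mul_assoc (g 1 ^ a) (g 2) (g 1), hg.he,
      mul_add, mul_add, ← mul_assoc (g 1 ^ a) (g 4) (g 1), ← ht,
      ← mul_assoc (g 1 ^ a) (g 1) (g 2), mul_assoc (g 4) (g 1 ^ a) (g 1)]
    rw [Nat.mul_succ, add_nsmul, two_nsmul]
    abel

theorem e_mul_f_pow (a : ℕ) : g 1 * g 0 ^ (a + 1) = g 0 ^ (a + 1) * g 1 +
    (a + 1) • (g 4 * (g 0 ^ a * g 2)) - (a * (a + 1)) • (g 4 * (g 4 * g 0 ^ a)) := by
  induction a with
  | zero => simp [hg.ef]
  | succ a ih =>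
    have ht : ∀ b, g 4 * g 0 ^ b = g 0 ^ b * g 4 := fun b => (Commute.pow_right (hg.tc 0) b)
    have e1 : g 0 ^ (a + 1) * g 1 * g 0 = g 0 ^ (a + 1 + 1) * g 1 + g 4 * (g 0 ^ (a + 1) * g 2) := by
      rw [mul_assoc, hg.ef, mul_add, ← mul_assoc, ← pow_succ, ← mul_assoc, ← ht, mul_assoc]
    have e2 : g 4 * (g 0 ^ a * g 2) * g 0 = g 4 * (g 0 ^ (a + 1) * g 2) -
        2 • (g 4 * (g 4 * g 0 ^ (a + 1))) := by
      rw [mul_assoc, mul_assoc, hg.hf, mul_sub, mul_sub, mul_add, ← mul_assoc (g 0 ^ a) (g 0),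
        ← pow_succ, ← mul_assoc (g 0 ^ a) (g 4), ← ht, mul_assoc (g 4) (g 0 ^ a), ← pow_succ,
        mul_add, two_nsmul]
    have e3 : g 4 * (g 4 * g 0 ^ a) * g 0 = g 4 * (g 4 * g 0 ^ (a + 1)) := by
      rw [mul_assoc, mul_assoc, ← pow_succ]
    rw [pow_succ (g 0) (a + 1), ← mul_assoc, ih, sub_mul, add_mul, smul_mul_assoc, smul_mul_assoc,
      e1, e2, e3, ← pow_succ, nsmul_sub, ← mul_nsmul']
    simp only [← natCast_zsmul]
    push_cast
    module

/-- The ordered monomial. -/
theorem h_mul_mono (a c : ℕ) (W : R) : g 2 * (g 0 ^ a * (g 1 ^ c * W)) =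
    g 0 ^ a * (g 1 ^ c * (g 2 * W)) + (2 * c) • (g 4 * (g 0 ^ a * (g 1 ^ c * W))) -
      (2 * a) • (g 4 * (g 0 ^ a * (g 1 ^ c * W))) := by
  have ht : g 4 * g 0 ^ a = g 0 ^ a * g 4 := (Commute.pow_right (hg.tc 0) a)
  rw [← mul_assoc, h_mul_f_pow hg, sub_mul, mul_assoc, smul_mul_assoc, mul_assoc (g 4),
    ← mul_assoc (g 2), h_mul_e_pow hg, add_mul, smul_mul_assoc, mul_add, mul_smul_comm,
    mul_assoc (g 4), ← mul_assoc (g 0 ^ a) (g 4), ← ht, mul_assoc (g 4), mul_assoc (g 1 ^ c)]

theorem e_mul_mono (a c : ℕ) (W : R) : g 1 * (g 0 ^ (a + 1) * (g 1 ^ c * W)) =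
    g 0 ^ (a + 1) * (g 1 ^ (c + 1) * W) + (a + 1) • (g 4 * (g 0 ^ a * (g 1 ^ c * (g 2 * W)))) +
      (2 * ((a + 1) * c)) • (g 4 * (g 4 * (g 0 ^ a * (g 1 ^ c * W)))) -
      (a * (a + 1)) • (g 4 * (g 4 * (g 0 ^ a * (g 1 ^ c * W)))) := by
  have ht : g 4 * g 0 ^ a = g 0 ^ a * g 4 := (Commute.pow_right (hg.tc 0) a)
  have h1 : g 0 ^ a * g 2 * (g 1 ^ c * W) = g 0 ^ a * (g 1 ^ c * (g 2 * W)) +
      (2 * c) • (g 4 * (g 0 ^ a * (g 1 ^ c * W))) := by
    rw [mul_assoc, ← mul_assoc (g 2), h_mul_e_pow hg, add_mul, smul_mul_assoc, mul_add,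
      mul_smul_comm, mul_assoc (g 4), ← mul_assoc (g 0 ^ a) (g 4), ← ht, mul_assoc (g 4),
      mul_assoc (g 1 ^ c)]
  rw [← mul_assoc, e_mul_f_pow hg, sub_mul, add_mul, smul_mul_assoc, smul_mul_assoc,
    mul_assoc (g 4), h1, mul_add, mul_smul_comm, nsmul_add, ← mul_nsmul', pow_succ' (g 1),
    mul_assoc (g 0 ^ (a + 1)) (g 1), mul_assoc (g 1), mul_assoc (g 4), mul_assoc (g 4)]
  rw [show (a + 1) * (2 * c) = 2 * ((a + 1) * c) from by ring]
  abel

end Straightening

/-- The exponent vector. -/
noncomputable def expo (a c b d m : ℕ) : Fin 5 →₀ ℕ :=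
  Finsupp.equivFunOnFinite.symm ![a, c, b, d, m]

/-- The monomial `X₀^a X₁^c X₂^b X₃^d X₄^m`. -/
noncomputable def mon (a c b d m : ℕ) : MvPolynomial (Fin 5) k := monomial (expo a c b d m) 1

theorem mon_eq (a c b d m : ℕ) :
    (mon a c b d m : MvPolynomial (Fin 5) k) = X 0 ^ a * X 1 ^ c * X 2 ^ b * X 3 ^ d * X 4 ^ m := by
  rw [mon, monomial_eq, Finsupp.prod_fintype _ _ (fun _ => pow_zero _), C_1, one_mul,
    Fin.prod_univ_five]
  rfl

/-- The ordered monomial in the enveloping algebra. -/
noncomputable def word (a c b d m : ℕ) : Env k :=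
  gen k 0 ^ a * (gen k 1 ^ c * (gen k 2 ^ b * (gen k 3 ^ d * gen k 4 ^ m)))

/-- The PBW map. -/
noncomputable def pbw : MvPolynomial (Fin 5) k →ₗ[k] Env k :=
  (basisMonomials (Fin 5) k).constr k fun s => word (s 0) (s 1) (s 2) (s 3) (s 4)

@[simp]
theorem pbw_mon (a c b d m : ℕ) : pbw (k := k) (mon a c b d m) = word a c b d m := by
  have : (mon a c b d m : MvPolynomial (Fin 5) k) = basisMonomials (Fin 5) k (expo a c b d m) := by
    simp [mon, coe_basisMonomials]
  rw [this, pbw, Module.Basis.constr_basis]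
  simp [expo]

theorem mon_induction {P : MvPolynomial (Fin 5) k → Prop} (h0 : P 0)
    (ha : ∀ p q, P p → P q → P (p + q)) (hs : ∀ (r : k) p, P p → P (r • p))
    (hm : ∀ a c b d m, P (mon a c b d m)) (p : MvPolynomial (Fin 5) k) : P p := by
  induction p using MvPolynomial.induction_on' with
  | monomial s r =>
    have he : expo (s 0) (s 1) (s 2) (s 3) (s 4) = s := by
      ext i; fin_cases i <;> simp [expo]
    have : monomial s r = r • (mon (s 0) (s 1) (s 2) (s 3) (s 4) : MvPolynomial (Fin 5) k) := by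
      rw [mon, he, smul_monomial, smul_eq_mul, mul_one]
    exact this ▸ hs r _ (hm _ _ _ _ _)
  | add p q hp hq => exact ha p q hp hq

theorem central_three (u : Env k) : gen k 3 * u = u * gen k 3 := by
  induction u using env_induction with
  | hc c => exact (Algebra.commutes c (gen k 3)).symm
  | hg i => exact (sat_gen k).zc i
  | ha a b p q => rw [mul_add, add_mul, p, q]
  | hm a b p q => rw [← mul_assoc, p, mul_assoc, q, mul_assoc]

theorem central_four (u : Env k) : gen k 4 * u = u * gen k 4 := by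
  induction u using env_induction with
  | hc c => exact (Algebra.commutes c (gen k 4)).symm
  | hg i => exact (sat_gen k).tc i
  | ha a b p q => rw [mul_add, add_mul, p, q]
  | hm a b p q => rw [← mul_assoc, p, mul_assoc, q, mul_assoc]

theorem gen_four_mul_word (a c b d m : ℕ) :
    gen k 4 * word a c b d m = word a c b d (m + 1) := by
  rw [central_four]
  simp only [word, mul_assoc, pow_succ]

theorem gen_two_mul_inner (b d m : ℕ) :
    gen k 2 * (gen k 2 ^ b * (gen k 3 ^ d * gen k 4 ^ m)) =
      gen k 2 ^ (b + 1) * (gen k 3 ^ d * gen k 4 ^ m) := by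
  rw [← mul_assoc, ← pow_succ']

/-- Left multiplication by generators corresponds to `op`. -/
theorem gen_mul_pbw (i : Fin 5) (p : MvPolynomial (Fin 5) k) :
    gen k i * pbw p = pbw (op i p) := by
  induction p using mon_induction with
  | h0 => simp
  | ha p q hp hq => simp [mul_add, hp, hq]
  | hs r p hp => simp [hp]
  | hm a c b d m =>
    rw [pbw_mon, op_apply]
    fin_cases i
    · have : (X 0 : MvPolynomial (Fin 5) k) * mon a c b d m = mon (a + 1) c b d m := by
        simp only [mon_eq]; ring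
      simp [opFun, this, word, pow_succ', mul_assoc]
    · rcases a with _ | a
      · have : opFun 1 (mon 0 c b d m : MvPolynomial (Fin 5) k) = mon 0 (c + 1) b d m := by
          simp [opFun, mon_eq, Derivation.leibniz, Derivation.leibniz_pow]
          ring
        simp [this, word, pow_succ', mul_assoc]
      · have : opFun 1 (mon (a + 1) c b d m : MvPolynomial (Fin 5) k) =
            mon (a + 1) (c + 1) b d m + (a + 1) • mon a c (b + 1) d (m + 1) +
              (2 * ((a + 1) * c)) • mon a c b d (m + 2) - (a * (a + 1)) • mon a c b d (m + 2) := by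
          rcases a with _ | a <;> rcases c with _ | c <;>
            (simp [opFun, mon_eq, Derivation.leibniz, Derivation.leibniz_pow, nsmul_eq_mul]; ring)
        simp only [show ((⟨1, by omega⟩ : Fin 5)) = 1 from rfl, this, map_sub, map_add, map_nsmul,
          pbw_mon]
        rw [word, e_mul_mono (sat_gen k), gen_two_mul_inner]
        simp only [← word.eq_def, gen_four_mul_word]
    · have : opFun 2 (mon a c b d m : MvPolynomial (Fin 5) k) = mon a c (b + 1) d m +
            (2 * c) • mon a c b d (m + 1) - (2 * a) • mon a c b d (m + 1) := by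
        rcases a with _ | a <;> rcases c with _ | c <;>
          (simp [opFun, mon_eq, Derivation.leibniz, Derivation.leibniz_pow, nsmul_eq_mul]; ring)
      simp only [show ((⟨2, by omega⟩ : Fin 5)) = 2 from rfl, this, map_sub, map_add, map_nsmul,
        pbw_mon]
      rw [word, h_mul_mono (sat_gen k), gen_two_mul_inner]
      simp only [← word.eq_def, gen_four_mul_word]
    · have : (X 3 : MvPolynomial (Fin 5) k) * mon a c b d m = mon a c b (d + 1) m := by
        simp only [mon_eq]; ring
      simp only [show ((⟨3, by omega⟩ : Fin 5)) = 3 from rfl]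
      simp only [opFun, Matrix.cons_val]
      rw [this, pbw_mon, word, word, pow_succ' (gen k 3)]
      simp only [← mul_assoc]
      rw [central_three (gen k 0 ^ a)]
      simp only [mul_assoc]
      congr 1
      rw [← mul_assoc, central_three, mul_assoc]
      congr 1
      rw [← mul_assoc, central_three, mul_assoc]
    · have : (X 4 : MvPolynomial (Fin 5) k) * mon a c b d m = mon a c b d (m + 1) := by
        simp only [mon_eq]; ring
      simp only [show ((⟨4, by omega⟩ : Fin 5)) = 4 from rfl]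
      simp only [opFun, Matrix.cons_val]
      rw [this, pbw_mon, gen_four_mul_word]

/-- The action of the enveloping algebra on polynomials. -/
noncomputable def act : Env k →ₐ[k] Module.End k (MvPolynomial (Fin 5) k) := envLift op sat_op

theorem mul_pbw (u : Env k) (p : MvPolynomial (Fin 5) k) : u * pbw p = pbw (act u p) := by
  induction u using env_induction generalizing p with
  | hc c => rw [AlgHom.commutes, Module.algebraMap_end_apply, map_smul, Algebra.smul_def]
  | hg i => rw [act, envLift_gen, gen_mul_pbw]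
  | ha a b hp hq => simp [add_mul, hp, hq]
  | hm a b hp hq => rw [mul_assoc, hq, hp, map_mul]; rfl

theorem mon_zero : (mon 0 0 0 0 0 : MvPolynomial (Fin 5) k) = 1 := by simp [mon_eq]

theorem pbw_one : pbw (k := k) 1 = 1 := by rw [← mon_zero, pbw_mon]; simp [word]

/-- The symbol of an element. -/
noncomputable def symb : Env k →ₗ[k] MvPolynomial (Fin 5) k :=
  (LinearMap.applyₗ (1 : MvPolynomial (Fin 5) k)).comp act.toLinearMap

theorem pbw_symb (u : Env k) : pbw (symb u) = u := by
  have := mul_pbw u 1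
  rw [pbw_one, mul_one] at this
  exact this.symm

theorem symb_mul (u w : Env k) : symb (u * w) = act u (symb w) := by simp [symb]

theorem symb_pbw (p : MvPolynomial (Fin 5) k) : symb (pbw p) = p := by
  induction p using mon_induction with
  | h0 => simp
  | ha p q hp hq => simp [hp, hq]
  | hs r p hp => simp [hp]
  | hm a c b d m =>
    have hp : ∀ (i : Fin 5) (n : ℕ) (w : Env k), symb (gen k i ^ n * w) = ((op i) ^ n) (symb w) := by
      intro i n w; rw [symb_mul, map_pow, act, envLift_gen]
    have h4 : ∀ n, ((op 4 : Module.End k (MvPolynomial (Fin 5) k)) ^ n) 1 = mon 0 0 0 0 n := by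
      intro n
      induction n with
      | zero => simp [mon_zero]
      | succ n ih => rw [pow_succ', Module.End.mul_apply, ih]; simp [op_apply, opFun, mon_eq]; ring
    have h3 : ∀ n j, ((op 3 : Module.End k (MvPolynomial (Fin 5) k)) ^ n) (mon 0 0 0 0 j) =
        mon 0 0 0 n j := by
      intro n j
      induction n with
      | zero => simp
      | succ n ih => rw [pow_succ', Module.End.mul_apply, ih]; simp [op_apply, opFun, mon_eq]; ring
    have h2 : ∀ n i j, ((op 2 : Module.End k (MvPolynomial (Fin 5) k)) ^ n) (mon 0 0 0 i j) =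
        mon 0 0 n i j := by
      intro n i j
      induction n with
      | zero => simp
      | succ n ih =>
        rw [pow_succ', Module.End.mul_apply, ih]
        simp [op_apply, opFun, mon_eq, Derivation.leibniz, Derivation.leibniz_pow]; ring
    have h1 : ∀ n l i j, ((op 1 : Module.End k (MvPolynomial (Fin 5) k)) ^ n) (mon 0 0 l i j) =
        mon 0 n l i j := by
      intro n l i j
      induction n with
      | zero => simp
      | succ n ih =>
        rw [pow_succ', Module.End.mul_apply, ih]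
        simp [op_apply, opFun, mon_eq, Derivation.leibniz, Derivation.leibniz_pow]; ring
    have h0 : ∀ n q l i j, ((op 0 : Module.End k (MvPolynomial (Fin 5) k)) ^ n) (mon 0 q l i j) =
        mon n q l i j := by
      intro n q l i j
      induction n with
      | zero => simp
      | succ n ih => rw [pow_succ', Module.End.mul_apply, ih]; simp [op_apply, opFun, mon_eq]; ring
    rw [pbw_mon, word, hp, hp, hp, hp, ← mul_one (gen k 4 ^ m), hp,
      show symb (1 : Env k) = 1 by simp [symb], h4, h3, h2, h1, h0]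

end Vale.Agent.P176
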