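import Vale.Agent.P176.Deformed
import Mathlib.RingTheory.MatrixAlgebra

/-!
# Tensoring with the two-dimensional module
-/

namespace Vale.Agent.P176

open Matrix

variable {k : Type} [Field k]

section

variable {R : Type} [Ring R] (g : Fin 5 → R)

/-- The generators tensored with the two-dimensional module. -/
def com : Fin 5 → Matrix (Fin 2) (Fin 2) R :=
  ![!![g 0, 0; g 4, g 0], !![g 1, g 4; 0, g 1], !![g 2 + g 4, 0; 0, g 2 - g 4],
    !![g 3 - g 4, 0; 0, g 3 - g 4], !![g 4, 0; 0, g 4]]

/-- The element commuting with `com`. -/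
def thet : Matrix (Fin 2) (Fin 2) R :=
  !![g 2 + g 3 + g 4, g 0 + g 0; g 1 + g 1, -g 2 + g 3 + g 4]

variable {g} (hg : Sat g)

include hg

theorem sat_com : Sat (com g) := by
  have z := hg.zc
  have t := hg.tc
  constructor
  · ext i j
    fin_cases i <;> fin_cases j <;>
      simp [com, mul_apply, Fin.sum_univ_two, hg.ef, hg.he, hg.hf, z 0, z 1, z 2, t 0, t 1, t 2,
        t 3, mul_add, add_mul, mul_sub, sub_mul] <;> abel
  · ext i j
    fin_cases i <;> fin_cases j <;>
      simp [com, mul_apply, Fin.sum_univ_two, hg.ef, hg.he, hg.hf, z 0, z 1, z 2, t 0, t 1, t 2,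
        t 3, mul_add, add_mul, mul_sub, sub_mul] <;> abel
  · ext i j
    fin_cases i <;> fin_cases j <;>
      simp [com, mul_apply, Fin.sum_univ_two, hg.ef, hg.he, hg.hf, z 0, z 1, z 2, t 0, t 1, t 2,
        t 3, mul_add, add_mul, mul_sub, sub_mul] <;> abel
  · intro a
    ext i j
    fin_cases a <;> fin_cases i <;> fin_cases j <;>
      simp [com, mul_apply, Fin.sum_univ_two, z 0, z 1, z 2, t 0, t 1, t 2, t 3, mul_add, add_mul,
        mul_sub, sub_mul] <;> abel
  · intro a
    ext i j
    fin_cases a <;> fin_cases i <;> fin_cases j <;>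
      simp [com, mul_apply, Fin.sum_univ_two, t 0, t 1, t 2, t 3, mul_add, add_mul, mul_sub,
        sub_mul]

theorem thet_com (a : Fin 5) : thet g * com g a = com g a * thet g := by
  have z := hg.zc
  have t := hg.tc
  ext i j
  fin_cases a <;> fin_cases i <;> fin_cases j <;>
    simp [thet, com, mul_apply, Fin.sum_univ_two, hg.ef, hg.he, hg.hf, z 0, z 1, z 2, t 0, t 1,
      t 2, t 3, mul_add, add_mul, mul_sub, sub_mul] <;> abel

end

variable (k) in
/-- Tensoring with the two-dimensional module. -/
noncomputable def comul : Env k →ₐ[k] Matrix (Fin 2) (Fin 2) (Env k) :=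
  envLift (com (gen k)) (sat_com (sat_gen k))

@[simp]
theorem comul_gen (a : Fin 5) : comul k (gen k a) = com (gen k) a := envLift_gen _ _ _

variable (k) in
/-- The central element. -/
noncomputable def theta : Matrix (Fin 2) (Fin 2) (Env k) := thet (gen k)

theorem theta_comul (u : Env k) : theta k * comul k u = comul k u * theta k := by
  induction u using env_induction with
  | hc c =>
    rw [AlgHom.commutes]
    exact (Algebra.commutes c (theta k)).symm
  | hg a => rw [comul_gen]; exact thet_com (sat_gen k) a
  | ha x y p q => rw [map_add, mul_add, add_mul, p, q]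
  | hm x y p q => rw [map_mul, ← mul_assoc, p, mul_assoc, q, mul_assoc]

theorem comul_mem {d : ℤ} {u : Env k} (hu : u ∈ piece k d) (a b : Fin 2) :
    comul k u a b ∈ piece k d := by
  rcases lt_or_ge d 0 with hd | hd
  · simp [eq_zero_of_mem_piece_neg hd hu]
  obtain ⟨m, rfl⟩ := Int.eq_ofNat_of_zero_le hd
  rw [piece_nat] at hu
  induction m generalizing u a b with
  | zero =>
    rw [pow_zero] at hu
    obtain ⟨c, rfl⟩ := Submodule.mem_one.1 hu
    rw [AlgHom.commutes, Algebra.algebraMap_eq_smul_one, Matrix.smul_apply]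
    refine Submodule.smul_mem _ c ?_
    by_cases h : a = b <;> simp [Matrix.one_apply, h, one_mem_piece]
  | succ n ih =>
    rw [pow_succ'] at hu
    refine Submodule.mul_induction_on hu (fun x hx y hy => ?_)
      (fun x y p q => by rw [map_add, Matrix.add_apply]; exact Submodule.add_mem _ p q)
    rw [map_mul, mul_apply]
    refine Submodule.sum_mem _ fun l _ => ?_
    rw [show ((n + 1 : ℕ) : ℤ) = 1 + (n : ℤ) by omega]
    refine mul_mem_piece ?_ (ih l b hy (Int.natCast_nonneg n))
    clear hy
    induction hx using Submodule.span_induction with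
    | mem x hx =>
      obtain ⟨i, rfl⟩ := hx
      rw [comul_gen]
      fin_cases i <;> fin_cases a <;> fin_cases l <;>
        simp [com, Submodule.add_mem, Submodule.sub_mem, gen_mem_piece]
    | zero => simp
    | add x y _ _ p q => rw [map_add, Matrix.add_apply]; exact Submodule.add_mem _ p q
    | smul c x _ p => rw [map_smul, Matrix.smul_apply]; exact Submodule.smul_mem _ c p

theorem theta_mem (a b : Fin 2) : theta k a b ∈ piece k 1 := by
  fin_cases a <;> fin_cases b <;>
    simp [theta, thet, Submodule.add_mem, Submodule.neg_mem, gen_mem_piece]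

end Vale.Agent.P176
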