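import Vale.Agent.P176.Koszul

/-!
# The complex of a finite-dimensional module, degree by degree
-/

namespace Vale.Agent.P176

open MvPolynomial Matrix

variable {k : Type} [Field k] {n : ℕ}

/-- A finite-dimensional module of `gl₂`, given by matrices, with `t` acting as one. -/
structure LieMod (k : Type) [Field k] (n : ℕ) where
  /-- The matrices of the generators. -/
  mat : Fin 5 → Matrix (Fin n) (Fin n) k
  /-- The relations hold. -/
  sat : Sat mat
  /-- `t` acts as the identity. -/
  t_one : mat 4 = 1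

/-- The evaluation homomorphism. -/
noncomputable def LieMod.ev (V : LieMod k n) : Env k →ₐ[k] Matrix (Fin n) (Fin n) k :=
  envLift V.mat V.sat

@[simp]
theorem LieMod.ev_gen (V : LieMod k n) (i : Fin 5) : V.ev (gen k i) = V.mat i := envLift_gen _ _ _

/-- Scalar matrices. -/
noncomputable def cst (A : Matrix (Fin n) (Fin n) k) : Matrix (Fin n) (Fin n) (Env k) :=
  A.map (algebraMap k (Env k))

theorem cst_mul_scalar (A : Matrix (Fin n) (Fin n) k) (u : Env k) :
    cst A * Matrix.scalar (Fin n) u = Matrix.scalar (Fin n) u * cst A := by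
  ext i j
  simp [cst, Algebra.commutes]

theorem cst_mul (A B : Matrix (Fin n) (Fin n) k) : cst (A * B) = cst A * cst B := Matrix.map_mul

theorem cst_add (A B : Matrix (Fin n) (Fin n) k) : cst (A + B) = cst A + cst B := by
  ext i j; simp [cst]

theorem cst_sub (A B : Matrix (Fin n) (Fin n) k) : cst (A - B) = cst A - cst B := by
  ext i j; simp [cst]

/-- The generators twisted by a module. -/
noncomputable def twist (V : LieMod k n) (i : Fin 5) : Matrix (Fin n) (Fin n) (Env k) :=
  Matrix.scalar (Fin n) (gen k i) -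
    if i = 4 then 0 else Matrix.scalar (Fin n) (gen k 4) * cst (V.mat i).transpose

theorem scalar_four_comm (M : Matrix (Fin n) (Fin n) (Env k)) :
    Matrix.scalar (Fin n) (gen k 4) * M = M * Matrix.scalar (Fin n) (gen k 4) := by
  ext i j
  simp [central_four]

theorem twist_mul (V : LieMod k n) {a b : Fin 5} (ha : a ≠ 4) (hb : b ≠ 4) :
    twist V a * twist V b =
      Matrix.scalar (Fin n) (gen k a * gen k b) -
      Matrix.scalar (Fin n) (gen k 4) *
        (Matrix.scalar (Fin n) (gen k a) * cst (V.mat b).transpose +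
          Matrix.scalar (Fin n) (gen k b) * cst (V.mat a).transpose) +
      Matrix.scalar (Fin n) (gen k 4) * Matrix.scalar (Fin n) (gen k 4) *
        cst (V.mat b * V.mat a).transpose := by
  simp only [twist, if_neg ha, if_neg hb, map_mul, transpose_mul, cst_mul]
  set T := Matrix.scalar (Fin n) (gen k 4)
  set P := cst (V.mat a).transpose
  set Q := cst (V.mat b).transpose
  set A := Matrix.scalar (Fin n) (gen k a)
  set B := Matrix.scalar (Fin n) (gen k b)
  have h1 : P * B = B * P := cst_mul_scalar _ _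
  have h2 : A * T = T * A := (scalar_four_comm A).symm
  have h3 : P * T = T * P := (scalar_four_comm P).symm
  have e1 : T * P * B = T * (B * P) := by rw [mul_assoc, h1]
  have e2 : A * (T * Q) = T * (A * Q) := by rw [← mul_assoc, h2, mul_assoc]
  have e3 : T * P * (T * Q) = T * T * (P * Q) := by
    rw [mul_assoc, ← mul_assoc P, h3, mul_assoc T P, ← mul_assoc T T]
  rw [sub_mul, mul_sub, mul_sub, e1, e2, e3, mul_add]
  abel

theorem twist_four (V : LieMod k n) : twist V 4 = Matrix.scalar (Fin n) (gen k 4) := by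
  simp [twist]

theorem sat_twist (V : LieMod k n) : Sat (twist V) := by
  set T := Matrix.scalar (Fin n) (gen k 4) with hT
  constructor
  · have hr : V.mat 0 * V.mat 1 = V.mat 1 * V.mat 0 - V.mat 2 := by
      rw [V.sat.ef, V.t_one, one_mul, add_sub_cancel_right]
    rw [twist_mul V (by decide) (by decide), twist_mul V (by decide) (by decide), twist_four,
      twist, if_neg (by decide), (sat_gen k).ef, map_add, map_mul _ (gen k 4), ← hT, hr,
      transpose_sub, cst_sub]
    simp only [mul_sub, mul_add, ← mul_assoc]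
    abel
  · have hr : V.mat 1 * V.mat 2 = V.mat 2 * V.mat 1 - (V.mat 1 + V.mat 1) := by
      rw [V.sat.he, V.t_one, one_mul, add_sub_cancel_right]
    rw [twist_mul V (by decide) (by decide), twist_mul V (by decide) (by decide), twist_four,
      twist, if_neg (by decide), (sat_gen k).he, map_add, map_add, map_mul _ (gen k 4), ← hT, hr,
      transpose_sub, transpose_add, cst_sub, cst_add]
    simp only [mul_sub, mul_add, ← mul_assoc]
    abel
  · have hr : V.mat 0 * V.mat 2 = V.mat 2 * V.mat 0 + (V.mat 0 + V.mat 0) := by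
      rw [V.sat.hf, V.t_one, one_mul, sub_add_cancel]
    rw [twist_mul V (by decide) (by decide), twist_mul V (by decide) (by decide), twist_four,
      twist, if_neg (by decide), (sat_gen k).hf, map_sub, map_add, map_mul _ (gen k 4), ← hT, hr,
      transpose_add, transpose_add, cst_add, cst_add]
    simp only [mul_sub, mul_add, ← mul_assoc]
    abel
  · intro i
    by_cases hi : i = 4
    · subst hi
      rw [twist_four]
      exact (scalar_four_comm _).symm
    · rw [twist_mul V (by decide) hi, twist_mul V hi (by decide), (sat_gen k).zc i, V.sat.zc i,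
        add_comm (Matrix.scalar (Fin n) (gen k i) * _)]
  · intro i
    rw [twist_four]
    exact scalar_four_comm _

theorem comp_mul {P Q R : Type} [Fintype Q]
    (A : Matrix P Q (Matrix (Fin n) (Fin n) (Env k)))
    (B : Matrix Q R (Matrix (Fin n) (Fin n) (Env k))) :
    Matrix.comp _ _ _ _ _ A * Matrix.comp _ _ _ _ _ B = Matrix.comp _ _ _ _ _ (A * B) := by
  ext ⟨p, i⟩ ⟨r, j⟩
  simp [Matrix.comp_apply, mul_apply, Fintype.sum_prod_type, Matrix.sum_apply]

variable (V : LieMod k n)

/-- First differential of the module's complex. -/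
noncomputable def D1 : Matrix (Fin 4 × Fin n) (Fin 1 × Fin n) (Env k) :=
  Matrix.comp _ _ _ _ _ (cx1 (twist V))

/-- Second differential of the module's complex. -/
noncomputable def D2 : Matrix (Fin 6 × Fin n) (Fin 4 × Fin n) (Env k) :=
  Matrix.comp _ _ _ _ _ (cx2 (twist V))

/-- Third differential of the module's complex. -/
noncomputable def D3 : Matrix (Fin 4 × Fin n) (Fin 6 × Fin n) (Env k) :=
  Matrix.comp _ _ _ _ _ (cx3 (twist V))

/-- Fourth differential of the module's complex. -/
noncomputable def D4 : Matrix (Fin 1 × Fin n) (Fin 4 × Fin n) (Env k) :=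
  Matrix.comp _ _ _ _ _ (cx4 (twist V))

theorem D21 : D2 V * D1 V = 0 := by
  rw [D2, D1, comp_mul, cx21 (sat_twist V)]; rfl

theorem D32 : D3 V * D2 V = 0 := by
  rw [D3, D2, comp_mul, cx32 (sat_twist V)]; rfl

theorem D43 : D4 V * D3 V = 0 := by
  rw [D4, D3, comp_mul, cx43 (sat_twist V)]; rfl

/-- The augmentation. -/
noncomputable def aug : (Fin 1 × Fin n → Env k) →ₗ[k] (Fin n → k) where
  toFun v i := ∑ j, V.ev (v (0, j)) i j
  map_add' v w := by ext i; simp [Finset.sum_add_distrib]
  map_smul' c v := by ext i; simp [Finset.mul_sum]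

theorem aug_eq (v : Fin 1 × Fin n → Env k) :
    aug V v = ∑ j, V.ev (v (0, j)) *ᵥ Pi.single j 1 := by
  ext i
  simp [aug, Finset.sum_apply]

theorem aug_mul (u : Env k) (v : Fin 1 × Fin n → Env k) :
    aug V (fun p => u * v p) = V.ev u *ᵥ aug V v := by
  rw [aug_eq, aug_eq, Matrix.mulVec_sum]
  exact Finset.sum_congr rfl fun j _ => by rw [Matrix.mulVec_mulVec, map_mul]

theorem aug_D1 (y : Fin 4 × Fin n → Env k) : aug V (y ᵥ* D1 V) = 0 := by
  have hrow : ∀ p : Fin 4 × Fin n, aug V (fun q => D1 V p q) = 0 := by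
    rintro ⟨a, i⟩
    obtain ⟨a', ha, hD⟩ : ∃ a' : Fin 5, a' ≠ 4 ∧ ∀ j, D1 V (a, i) (0, j) = twist V a' i j := by
      fin_cases a
      · exact ⟨0, by decide, fun j => rfl⟩
      · exact ⟨1, by decide, fun j => rfl⟩
      · exact ⟨2, by decide, fun j => rfl⟩
      · exact ⟨3, by decide, fun j => rfl⟩
    ext l
    simp only [aug, LinearMap.coe_mk, AddHom.coe_mk, hD]
    rw [Pi.zero_apply]
    simp [twist, ha, cst, Matrix.diagonal_apply, apply_ite V.ev, V.t_one,
      Matrix.sum_apply, apply_ite (fun M : Matrix (Fin n) (Fin n) k => M l),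
      ite_apply, Finset.sum_sub_distrib, Algebra.algebraMap_eq_smul_one, Matrix.smul_apply,
      Matrix.one_apply]
  have hy : y ᵥ* D1 V = ∑ p, (fun q => y p * D1 V p q) := by
    ext q; simp [vecMul, dotProduct, Finset.sum_apply]
  rw [hy, map_sum]
  exact Finset.sum_eq_zero fun p _ => by rw [aug_mul, hrow, Matrix.mulVec_zero]

/-! ### Lifting exactness from the symmetric algebra -/

/-- All entries lie in degree `d`. -/
def Deg (d : ℤ) {P : Type} (v : P → Env k) : Prop := ∀ p, v p ∈ piece k d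

theorem scalar_apply_mem {d : ℤ} {u : Env k} (hu : u ∈ piece k d) (i j : Fin n) :
    Matrix.scalar (Fin n) u i j ∈ piece k d := by
  by_cases h : i = j <;> simp [Matrix.diagonal_apply, h, hu]

theorem twist_mem (a : Fin 5) (i j : Fin n) : twist V a i j ∈ piece k 1 := by
  rw [twist, Matrix.sub_apply]
  refine Submodule.sub_mem _ (scalar_apply_mem (gen_mem_piece a) i j) ?_
  split
  · simp
  · rw [Matrix.scalar_apply, Matrix.diagonal_mul]
    have : cst (V.mat a).transpose i j = (V.mat a).transpose i j • (1 : Env k) := by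
      simp [cst, Algebra.algebraMap_eq_smul_one]
    rw [this, mul_smul_comm, mul_one]
    exact Submodule.smul_mem _ _ (gen_mem_piece 4)

variable (k n) in
/-- Matrices with entries of degree one. -/
noncomputable def deg1 : AddSubgroup (Matrix (Fin n) (Fin n) (Env k)) where
  carrier := {M | ∀ i j, M i j ∈ piece k 1}
  add_mem' hM hN i j := Submodule.add_mem _ (hM i j) (hN i j)
  zero_mem' _ _ := Submodule.zero_mem _
  neg_mem' hM i j := Submodule.neg_mem _ (hM i j)

section

variable {R : Type} [Ring R] {g : Fin 5 → R} {S : AddSubgroup R} (hS : ∀ i, g i ∈ S)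

include hS

theorem cx2_mem (q : Fin 6) (p : Fin 4) : cx2 g q p ∈ S := by
  fin_cases q <;> fin_cases p <;> simp [cx2] <;>
    repeat' first | exact hS _ | apply zero_mem | apply neg_mem |
      apply add_mem | apply sub_mem

theorem cx3_mem (q : Fin 4) (p : Fin 6) : cx3 g q p ∈ S := by
  fin_cases q <;> fin_cases p <;> simp [cx3] <;>
    repeat' first | exact hS _ | apply zero_mem | apply neg_mem |
      apply add_mem | apply sub_mem

theorem cx4_mem (q : Fin 1) (p : Fin 4) : cx4 g q p ∈ S := by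
  fin_cases q <;> fin_cases p <;> simp [cx4] <;>
    repeat' first | exact hS _ | apply zero_mem | apply neg_mem |
      apply add_mem | apply sub_mem

end

theorem D1_mem : ∀ p q, D1 V p q ∈ piece k 1 := by
  rintro ⟨a, i⟩ ⟨b, j⟩
  fin_cases a <;> fin_cases b <;> exact twist_mem V _ _ _

theorem D2_mem : ∀ p q, D2 V p q ∈ piece k 1 := fun ⟨a, i⟩ ⟨b, j⟩ =>
  cx2_mem (S := deg1 k n) (fun a i j => twist_mem V a i j) a b i j

theorem D3_mem : ∀ p q, D3 V p q ∈ piece k 1 := fun ⟨a, i⟩ ⟨b, j⟩ =>
  cx3_mem (S := deg1 k n) (fun a i j => twist_mem V a i j) a b i j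

theorem D4_mem : ∀ p q, D4 V p q ∈ piece k 1 := fun ⟨a, i⟩ ⟨b, j⟩ =>
  cx4_mem (S := deg1 k n) (fun a i j => twist_mem V a i j) a b i j

theorem vecMul_deg {P Q : Type} [Fintype Q] {d : ℤ} {y : Q → Env k} (hy : Deg d y)
    {D : Matrix Q P (Env k)} (hD : ∀ q p, D q p ∈ piece k 1) : Deg (d + 1) (y ᵥ* D) :=
  fun p => Submodule.sum_mem _ fun q _ => mul_mem_piece (hy q) (hD q p)

theorem proj_twist (a : Fin 5) (i j : Fin n) :
    proj (twist V a i j) = if i = j then (symGen a : MvPolynomial (Fin 4) k) else 0 := by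
  have h4 : proj (gen k 4) = (0 : MvPolynomial (Fin 4) k) := by simp [proj]
  have hg : proj (gen k a) = (symGen a : MvPolynomial (Fin 4) k) := by simp [proj, symGen]
  by_cases ha : a = 4 <;> by_cases hij : i = j <;>
    simp [twist, ha, hij, h4, hg, Matrix.diagonal_apply] <;> simp [symGen]

/-- The component of a vector over a fixed index of the module. -/
def comp₀ {P : Type} (z : P × Fin n → MvPolynomial (Fin 4) k) (i : Fin n) :
    P → MvPolynomial (Fin 4) k :=
  fun p => z (p, i)

theorem proj_vecMul {P Q : Type} [Fintype Q] (v : Q × Fin n → Env k)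
    (D : Matrix (Q × Fin n) (P × Fin n) (Env k)) (K : Matrix Q P (MvPolynomial (Fin 4) k))
    (hK : ∀ q p i j, proj (D (q, i) (p, j)) = if i = j then K q p else 0) (j : Fin n) :
    comp₀ (fun x => proj ((v ᵥ* D) x)) j = comp₀ (fun x => proj (v x)) j ᵥ* K := by
  funext p
  simp [comp₀, vecMul, dotProduct, Fintype.sum_prod_type, hK, mul_ite]

/-- Setting `t = 0` in a matrix. -/
noncomputable def pm :
    Matrix (Fin n) (Fin n) (Env k) →+* Matrix (Fin n) (Fin n) (MvPolynomial (Fin 4) k) :=
  (proj (k := k)).toRingHom.mapMatrix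

theorem pm_twist (a : Fin 5) :
    pm (twist V a) = Matrix.scalar (Fin n) (symGen a : MvPolynomial (Fin 4) k) := by
  ext1 i j
  simpa [pm, Matrix.diagonal_apply] using proj_twist V a i j

section

variable {R S : Type} [Ring R] [Ring S] (f : R →+* S) (g : Fin 5 → R)

theorem map_cx1 (q : Fin 4) (p : Fin 1) : f (cx1 g q p) = cx1 (fun i => f (g i)) q p := by
  fin_cases q <;> fin_cases p <;> simp [cx1]

theorem map_cx2 (q : Fin 6) (p : Fin 4) : f (cx2 g q p) = cx2 (fun i => f (g i)) q p := by
  fin_cases q <;> fin_cases p <;> simp [cx2]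

theorem map_cx3 (q : Fin 4) (p : Fin 6) : f (cx3 g q p) = cx3 (fun i => f (g i)) q p := by
  fin_cases q <;> fin_cases p <;> simp [cx3]

theorem map_cx4 (q : Fin 1) (p : Fin 4) : f (cx4 g q p) = cx4 (fun i => f (g i)) q p := by
  fin_cases q <;> fin_cases p <;> simp [cx4]

end

theorem proj_D1 (q : Fin 4) (p : Fin 1) (i j : Fin n) :
    proj (D1 V (q, i) (p, j)) = if i = j then cx1 (symGen (k := k)) q p else 0 := by
  have h := map_cx1 (pm (k := k) (n := n)) (twist V) q p
  rw [funext (pm_twist V), ← map_cx1 (Matrix.scalar (Fin n)) symGen q p] at h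
  have h' := congrFun₂ h i j
  rw [Matrix.scalar_apply, Matrix.diagonal_apply] at h'
  exact h'

theorem proj_D2 (q : Fin 6) (p : Fin 4) (i j : Fin n) :
    proj (D2 V (q, i) (p, j)) = if i = j then cx2 (symGen (k := k)) q p else 0 := by
  have h := map_cx2 (pm (k := k) (n := n)) (twist V) q p
  rw [funext (pm_twist V), ← map_cx2 (Matrix.scalar (Fin n)) symGen q p] at h
  have h' := congrFun₂ h i j
  rw [Matrix.scalar_apply, Matrix.diagonal_apply] at h'
  exact h'

theorem proj_D3 (q : Fin 4) (p : Fin 6) (i j : Fin n) :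
    proj (D3 V (q, i) (p, j)) = if i = j then cx3 (symGen (k := k)) q p else 0 := by
  have h := map_cx3 (pm (k := k) (n := n)) (twist V) q p
  rw [funext (pm_twist V), ← map_cx3 (Matrix.scalar (Fin n)) symGen q p] at h
  have h' := congrFun₂ h i j
  rw [Matrix.scalar_apply, Matrix.diagonal_apply] at h'
  exact h'

theorem proj_D4 (q : Fin 1) (p : Fin 4) (i j : Fin n) :
    proj (D4 V (q, i) (p, j)) = if i = j then cx4 (symGen (k := k)) q p else 0 := by
  have h := map_cx4 (pm (k := k) (n := n)) (twist V) q p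
  rw [funext (pm_twist V), ← map_cx4 (Matrix.scalar (Fin n)) symGen q p] at h
  have h' := congrFun₂ h i j
  rw [Matrix.scalar_apply, Matrix.diagonal_apply] at h'
  exact h'

theorem exists_lift {P Q : Type} [Fintype Q] {m : ℕ} {v : P × Fin n → Env k}
    (D : Matrix (Q × Fin n) (P × Fin n) (Env k)) (K : Matrix Q P (MvPolynomial (Fin 4) k))
    (hK : ∀ q p i j, proj (D (q, i) (p, j)) = if i = j then K q p else 0)
    (hy : ∀ i, ∃ y, Hom4 (m - 1) y ∧ y ᵥ* K = comp₀ (fun x => proj (v x)) i)
    (h0 : m = 0 → ∀ x, proj (v x) = 0) :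
    ∃ y, Deg ((m : ℤ) - 1) y ∧ ∀ x, proj (v x) = proj ((y ᵥ* D) x) := by
  rcases Nat.eq_zero_or_pos m with hm | hm
  · refine ⟨0, fun _ => Submodule.zero_mem _, fun x => ?_⟩
    simp [h0 hm x]
  · choose Y hY hYK using hy
    refine ⟨fun q => lift4 (Y q.2 q.1), fun q => ?_, fun ⟨p, j⟩ => ?_⟩
    · rw [show (m : ℤ) - 1 = ((m - 1 : ℕ) : ℤ) by omega]
      exact lift4_mem (hY _ _)
    · have := congrFun (proj_vecMul (fun q => lift4 (Y q.2 q.1)) D K hK j) p
      simp only [comp₀, proj_lift4] at this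
      rw [this]
      exact (congrFun (hYK j) p).symm

/-- If a cycle is a boundary modulo `t`, it is a boundary. -/
theorem exact_of_step {P Q : Type} [Fintype Q] {M : Type} [AddCommGroup M]
    (c : (P → Env k) →+ M) (D : Matrix Q P (Env k)) (hD : ∀ q p, D q p ∈ piece k 1)
    (hc : ∀ y, c (y ᵥ* D) = 0) (ht : ∀ w : P → Env k, c (fun p => gen k 4 * w p) = 0 → c w = 0)
    (step : ∀ (m : ℕ) (v : P → Env k), Deg (m : ℤ) v → c v = 0 →
      ∃ y, Deg ((m : ℤ) - 1) y ∧ ∀ p, proj (v p) = proj ((y ᵥ* D) p))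
    (d : ℤ) (v : P → Env k) (hv : Deg d v) (h0 : c v = 0) :
    ∃ y, Deg (d - 1) y ∧ y ᵥ* D = v := by
  rcases lt_or_ge d 0 with hd | hd
  · refine ⟨0, fun _ => Submodule.zero_mem _, funext fun p => ?_⟩
    rw [zero_vecMul, Pi.zero_apply, eq_zero_of_mem_piece_neg hd (hv p)]
  obtain ⟨m, rfl⟩ := Int.eq_ofNat_of_zero_le hd
  induction m using Nat.strong_induction_on generalizing v with
  | _ m ih =>
    obtain ⟨y, hy, hyp⟩ := step m v hv h0
    have hdiv : ∀ p, ∃ w, v p - (y ᵥ* D) p = gen k 4 * w := fun p =>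
      exists_of_proj_eq_zero (by rw [map_sub, hyp, sub_self])
    choose w hw using hdiv
    have hyD : Deg (m : ℤ) (y ᵥ* D) := by
      have := vecMul_deg hy hD
      rwa [sub_add_cancel] at this
    have hwd : Deg ((m : ℤ) - 1) w := fun p => mem_piece_of_gen_four_mul (by
      rw [sub_add_cancel, ← hw p]; exact Submodule.sub_mem _ (hv p) (hyD p))
    rcases Nat.eq_zero_or_pos m with hm | hm
    · refine ⟨y, hy, funext fun p => ?_⟩
      have := eq_zero_of_mem_piece_neg (by omega) (hwd p)
      rw [← sub_eq_zero, ← neg_sub, hw p, this, mul_zero, neg_zero]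
    · have hwd' : Deg ((m - 1 : ℕ) : ℤ) w := by
        rwa [show ((m - 1 : ℕ) : ℤ) = (m : ℤ) - 1 by omega]
      have hcw : c w = 0 := ht w (by
        rw [show (fun p => gen k 4 * w p) = v - y ᵥ* D from funext fun p => (hw p).symm,
          map_sub, h0, hc, sub_zero])
      obtain ⟨y', hy', hy'D⟩ := ih (m - 1) (by omega) w hcw hwd' (by omega)
      refine ⟨fun q => y q + gen k 4 * y' q, fun q => Submodule.add_mem _ (hy q) ?_,
        funext fun p => ?_⟩
      · have := mul_mem_piece (gen_mem_piece (k := k) 4) (hy' q)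
        rwa [show (1 : ℤ) + (((m - 1 : ℕ) : ℤ) - 1) = (m : ℤ) - 1 by omega] at this
      · have h1 := congrFun hy'D p
        simp only [vecMul, dotProduct] at h1 hw ⊢
        simp only [add_mul, Finset.sum_add_distrib, mul_assoc, ← Finset.mul_sum, h1, ← hw p]
        abel

/-- `c` for the complex in positive positions. -/
noncomputable def mulHom {P R : Type} [Fintype P] (D : Matrix P R (Env k)) :
    (P → Env k) →+ (R → Env k) where
  toFun v := v ᵥ* D
  map_zero' := zero_vecMul _
  map_add' v w := add_vecMul D v w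

theorem mulHom_t {P R : Type} [Fintype P] (D : Matrix P R (Env k)) (w : P → Env k)
    (h : mulHom D (fun p => gen k 4 * w p) = 0) : mulHom D w = 0 := by
  funext r
  apply gen_four_injective
  rw [Pi.zero_apply, mul_zero]
  have := congrFun h r
  simpa [mulHom, vecMul, dotProduct, mul_assoc, ← Finset.mul_sum] using this

theorem eq_zero_of_deg_zero {P Q : Type} [Fintype Q] {z : P → MvPolynomial (Fin 4) k}
    (hz : Hom4 0 z) {K : Matrix Q P (MvPolynomial (Fin 4) k)}
    (hK : ∀ q p, (K q p).IsHomogeneous 1) (y : Q → MvPolynomial (Fin 4) k)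
    (hy : Hom4 0 y) (e : y ᵥ* K = z) (p : P) : z p = 0 := by
  by_contra hne
  have h1 : (z p).IsHomogeneous 1 := by
    rw [← e]
    exact IsHomogeneous.sum _ _ _ fun q _ => by simpa using (hy q).mul (hK q p)
  exact absurd ((hz p).inj_right h1 hne) (by omega)

theorem cx2_hom (q : Fin 6) (p : Fin 4) : (cx2 (symGen (k := k)) q p).IsHomogeneous 1 := by
  fin_cases q <;> fin_cases p <;>
    simp [cx2, symGen, isHomogeneous_X, isHomogeneous_zero, IsHomogeneous.neg]

theorem cx3_hom (q : Fin 4) (p : Fin 6) : (cx3 (symGen (k := k)) q p).IsHomogeneous 1 := by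
  fin_cases q <;> fin_cases p <;>
    simp [cx3, symGen, isHomogeneous_X, isHomogeneous_zero, IsHomogeneous.neg]

theorem cx4_hom (q : Fin 1) (p : Fin 4) : (cx4 (symGen (k := k)) q p).IsHomogeneous 1 := by
  fin_cases q <;> fin_cases p <;>
    simp [cx4, symGen, isHomogeneous_X, isHomogeneous_zero, IsHomogeneous.neg]

variable [CharZero k]

theorem exact0 (d : ℤ) (v : Fin 1 × Fin n → Env k) (hv : Deg d v) (h0 : aug V v = 0) :
    ∃ y, Deg (d - 1) y ∧ y ᵥ* D1 V = v := by
  refine exact_of_step (aug V).toAddMonoidHom (D1 V) (D1_mem V) (aug_D1 V) ?_ ?_ d v hv h0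
  · intro w hw
    simpa [aug_mul, V.t_one] using hw
  · intro m v hv h0
    rcases Nat.eq_zero_or_pos m with hm | hm
    · subst hm
      refine ⟨0, fun _ => Submodule.zero_mem _, fun p => ?_⟩
      have hp : ∀ x, ∃ c : k, v x = algebraMap k (Env k) c := fun x => by
        have := hv x
        rw [piece_nat, pow_zero] at this
        obtain ⟨c, hc⟩ := Submodule.mem_one.1 this
        exact ⟨c, hc.symm⟩
      choose c hc using hp
      have := congrFun h0 p.2
      simp [aug, hc, Matrix.algebraMap_matrix_apply] at this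
      have hp1 : p = (0, p.2) := Prod.ext (Subsingleton.elim _ _) rfl
      rw [hp1, hc, this]
      simp
    · refine exists_lift (D1 V) _ (proj_D1 V) (fun i => ?_) (fun h => absurd h (by omega))
      exact exact_sym0 (by omega) (fun p => proj_mem (hv (p, i)))

theorem exact1 (d : ℤ) (v : Fin 4 × Fin n → Env k) (hv : Deg d v) (h0 : v ᵥ* D1 V = 0) :
    ∃ y, Deg (d - 1) y ∧ y ᵥ* D2 V = v := by
  refine exact_of_step (mulHom (D1 V)) (D2 V) (D2_mem V)
    (fun y => show (y ᵥ* D2 V) ᵥ* D1 V = 0 by rw [vecMul_vecMul, D21, vecMul_zero])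
    (mulHom_t _) ?_ d v hv h0
  intro m v hv h0
  have key : ∀ i, ∃ y, Hom4 (m - 1) y ∧ y ᵥ* cx2 symGen = comp₀ (fun x => proj (v x)) i :=
    fun i => exact_sym1 (fun p => proj_mem (hv (p, i))) (by
      rw [← proj_vecMul v (D1 V) _ (proj_D1 V) i, show v ᵥ* D1 V = 0 from h0]
      funext p; simp [comp₀])
  refine exists_lift (D2 V) _ (proj_D2 V) key (fun hm x => ?_)
  subst hm
  obtain ⟨y, hy, e⟩ := key x.2
  exact eq_zero_of_deg_zero (fun p => proj_mem (hv (p, x.2))) cx2_hom y hy e x.1

theorem exact2 (d : ℤ) (v : Fin 6 × Fin n → Env k) (hv : Deg d v) (h0 : v ᵥ* D2 V = 0) :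
    ∃ y, Deg (d - 1) y ∧ y ᵥ* D3 V = v := by
  refine exact_of_step (mulHom (D2 V)) (D3 V) (D3_mem V)
    (fun y => show (y ᵥ* D3 V) ᵥ* D2 V = 0 by rw [vecMul_vecMul, D32, vecMul_zero])
    (mulHom_t _) ?_ d v hv h0
  intro m v hv h0
  have key : ∀ i, ∃ y, Hom4 (m - 1) y ∧ y ᵥ* cx3 symGen = comp₀ (fun x => proj (v x)) i :=
    fun i => exact_sym2 (fun p => proj_mem (hv (p, i))) (by
      rw [← proj_vecMul v (D2 V) _ (proj_D2 V) i, show v ᵥ* D2 V = 0 from h0]
      funext p; simp [comp₀])
  refine exists_lift (D3 V) _ (proj_D3 V) key (fun hm x => ?_)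
  subst hm
  obtain ⟨y, hy, e⟩ := key x.2
  exact eq_zero_of_deg_zero (fun p => proj_mem (hv (p, x.2))) cx3_hom y hy e x.1

theorem exact3 (d : ℤ) (v : Fin 4 × Fin n → Env k) (hv : Deg d v) (h0 : v ᵥ* D3 V = 0) :
    ∃ y, Deg (d - 1) y ∧ y ᵥ* D4 V = v := by
  refine exact_of_step (mulHom (D3 V)) (D4 V) (D4_mem V)
    (fun y => show (y ᵥ* D4 V) ᵥ* D3 V = 0 by rw [vecMul_vecMul, D43, vecMul_zero])
    (mulHom_t _) ?_ d v hv h0
  intro m v hv h0
  have key : ∀ i, ∃ y, Hom4 (m - 1) y ∧ y ᵥ* cx4 symGen = comp₀ (fun x => proj (v x)) i :=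
    fun i => exact_sym3 (fun p => proj_mem (hv (p, i))) (by
      rw [← proj_vecMul v (D3 V) _ (proj_D3 V) i, show v ᵥ* D3 V = 0 from h0]
      funext p; simp [comp₀])
  refine exists_lift (D4 V) _ (proj_D4 V) key (fun hm x => ?_)
  subst hm
  obtain ⟨y, hy, e⟩ := key x.2
  exact eq_zero_of_deg_zero (fun p => proj_mem (hv (p, x.2))) cx4_hom y hy e x.1

omit [CharZero k] in
theorem exact4 (d : ℤ) (v : Fin 1 × Fin n → Env k) (hv : Deg d v) (h0 : v ᵥ* D4 V = 0) : v = 0 := by
  obtain ⟨y, -, hy⟩ := exact_of_step (Q := Fin 0) (mulHom (D4 V)) 0 (fun q => q.elim0)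
    (fun y => by simp [mulHom]) (mulHom_t _) (fun m v hv h0 => ⟨0, fun q => q.elim0, fun x => by
      have := exact_sym4 (z := comp₀ (fun x => proj (v x)) x.2) (by
        rw [← proj_vecMul v (D4 V) _ (proj_D4 V) x.2, show v ᵥ* D4 V = 0 from h0]
        funext p; simp [comp₀])
      have h1 := congrFun this x.1
      simpa [comp₀] using h1⟩) d v hv h0
  rw [← hy]; simp

end Vale.Agent.P176
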