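import Mathlib.Algebra.RingQuot
import Mathlib.Algebra.FreeAlgebra
import Mathlib.RingTheory.MvPolynomial.Homogeneous
import Mathlib.Algebra.MvPolynomial.PDeriv
import Mathlib.Algebra.Algebra.Operations
import Mathlib.RingTheory.Finiteness.Basic
import Mathlib.LinearAlgebra.Matrix.Notation
import Mathlib.Data.Matrix.Composition
import Mathlib.Tactic.Module
import Mathlib.Tactic.NoncommRing

/-!
# The homogenized enveloping algebra of `gl₂`

Generators: `0 = f`, `1 = e`, `2 = h`, `3 = z`, `4 = t`, with `z`, `t` central, `[e,f] = t h`,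
`[h,e] = 2 t e`, `[h,f] = -2 t f`.
-/

namespace Vale.Agent.P176

open MvPolynomial

variable {k : Type} [Field k]

/-- A tuple of five elements satisfying the defining relations. -/
structure Sat {R : Type} [Ring R] (g : Fin 5 → R) : Prop where
  ef : g 1 * g 0 = g 0 * g 1 + g 4 * g 2
  he : g 2 * g 1 = g 1 * g 2 + (g 4 * g 1 + g 4 * g 1)
  hf : g 2 * g 0 = g 0 * g 2 - (g 4 * g 0 + g 4 * g 0)
  zc : ∀ i, g 3 * g i = g i * g 3
  tc : ∀ i, g 4 * g i = g i * g 4

section

variable (k)

/-- The free generators. -/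
noncomputable def fgen (i : Fin 5) : FreeAlgebra k (Fin 5) := FreeAlgebra.ι k i

/-- The defining relations. -/
inductive Rel : FreeAlgebra k (Fin 5) → FreeAlgebra k (Fin 5) → Prop
  | ef : Rel (fgen k 1 * fgen k 0) (fgen k 0 * fgen k 1 + fgen k 4 * fgen k 2)
  | he : Rel (fgen k 2 * fgen k 1)
      (fgen k 1 * fgen k 2 + (fgen k 4 * fgen k 1 + fgen k 4 * fgen k 1))
  | hf : Rel (fgen k 2 * fgen k 0)
      (fgen k 0 * fgen k 2 - (fgen k 4 * fgen k 0 + fgen k 4 * fgen k 0))
  | zc (i : Fin 5) : Rel (fgen k 3 * fgen k i) (fgen k i * fgen k 3)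
  | tc (i : Fin 5) : Rel (fgen k 4 * fgen k i) (fgen k i * fgen k 4)

/-- The homogenized enveloping algebra of `gl₂`. -/
abbrev Env : Type := RingQuot (Rel k)

/-- The generators of `Env k`. -/
noncomputable def gen (i : Fin 5) : Env k := RingQuot.mkAlgHom k (Rel k) (fgen k i)

theorem sat_gen : Sat (gen k) := by
  constructor
  · simpa [gen] using RingQuot.mkAlgHom_rel k (Rel.ef (k := k))
  · simpa [gen] using RingQuot.mkAlgHom_rel k (Rel.he (k := k))
  · simpa [gen] using RingQuot.mkAlgHom_rel k (Rel.hf (k := k))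
  · exact fun i => by simpa [gen] using RingQuot.mkAlgHom_rel k (Rel.zc (k := k) i)
  · exact fun i => by simpa [gen] using RingQuot.mkAlgHom_rel k (Rel.tc (k := k) i)

end

/-- The universal property of `Env k`. -/
noncomputable def envLift {R : Type} [Ring R] [Algebra k R] (g : Fin 5 → R) (hg : Sat g) :
    Env k →ₐ[k] R :=
  RingQuot.liftAlgHom k ⟨FreeAlgebra.lift k g, by
    intro a b h
    cases h <;> simp [fgen, hg.ef, hg.he, hg.hf, hg.zc, hg.tc]⟩

@[simp]
theorem envLift_gen {R : Type} [Ring R] [Algebra k R] (g : Fin 5 → R) (hg : Sat g) (i : Fin 5) :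
    envLift g hg (gen k i) = g i := by
  simp [envLift, gen, fgen]

theorem env_hom_ext {R : Type} [Ring R] [Algebra k R] {F G : Env k →ₐ[k] R}
    (h : ∀ i, F (gen k i) = G (gen k i)) : F = G :=
  RingQuot.ringQuot_ext' (S := k) _ _ (FreeAlgebra.hom_ext (funext h))

theorem env_induction {P : Env k → Prop} (hc : ∀ c, P (algebraMap k _ c)) (hg : ∀ i, P (gen k i))
    (ha : ∀ a b, P a → P b → P (a + b)) (hm : ∀ a b, P a → P b → P (a * b)) (u : Env k) : P u := by
  obtain ⟨w, rfl⟩ := RingQuot.mkAlgHom_surjective k (Rel k) u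
  induction w using FreeAlgebra.induction with
  | grade0 r => simpa using hc r
  | grade1 i => exact hg i
  | mul a b p q => rw [map_mul]; exact hm _ _ p q
  | add a b p q => rw [map_add]; exact ha _ _ p q

/-! ### The representation on polynomials -/

/-- Left multiplication by the generators, in the PBW basis `f^a e^c h^b z^d t^m`. -/
noncomputable def opFun : Fin 5 → MvPolynomial (Fin 5) k → MvPolynomial (Fin 5) k :=
  ![fun p => X 0 * p,
    fun p => X 1 * p + X 4 * (X 2 * pderiv 0 p) + X 4 * X 4 *
      (X 1 * pderiv 1 (pderiv 0 p) + X 1 * pderiv 1 (pderiv 0 p) - X 0 * pderiv 0 (pderiv 0 p)),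
    fun p => X 2 * p + (X 4 * (X 1 * pderiv 1 p - X 0 * pderiv 0 p) +
      X 4 * (X 1 * pderiv 1 p - X 0 * pderiv 0 p)),
    fun p => X 3 * p,
    fun p => X 4 * p]

/-- `opFun` as linear maps. -/
noncomputable def op (i : Fin 5) : Module.End k (MvPolynomial (Fin 5) k) where
  toFun := opFun i
  map_add' p q := by fin_cases i <;> simp [opFun] <;> ring
  map_smul' c p := by
    fin_cases i <;> simp [opFun, MvPolynomial.smul_eq_C_mul, Derivation.leibniz] <;> ring

theorem op_apply (i : Fin 5) (p : MvPolynomial (Fin 5) k) : op i p = opFun i p := rfl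

theorem pderiv_comm {σ : Type} (i j : σ) (p : MvPolynomial σ k) :
    pderiv i (pderiv j p) = pderiv j (pderiv i p) := by
  classical
  induction p using MvPolynomial.induction_on with
  | C a => simp
  | add p q hp hq => simp [hp, hq]
  | mul_X p l hp =>
    simp [hp, pderiv_X, Pi.single_apply]
    split_ifs <;> subst_vars <;> simp [add_comm, add_left_comm]

theorem sat_op : Sat (op (k := k)) := by
  have c10 := fun p : MvPolynomial (Fin 5) k => pderiv_comm 1 0 p
  constructor
  · refine LinearMap.ext fun p => ?_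
    simp [op_apply, opFun, Derivation.leibniz, c10]
    ring
  · refine LinearMap.ext fun p => ?_
    simp [op_apply, opFun, Derivation.leibniz, c10]
    ring
  · refine LinearMap.ext fun p => ?_
    simp [op_apply, opFun, Derivation.leibniz, c10]
    ring
  · intro i
    refine LinearMap.ext fun p => ?_
    fin_cases i <;> simp [op_apply, opFun, Derivation.leibniz] <;> ring
  · intro i
    refine LinearMap.ext fun p => ?_
    fin_cases i <;> simp [op_apply, opFun, Derivation.leibniz] <;> ring

end Vale.Agent.P176
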