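import Vale.Agent.P176.Basis
import Mathlib.RingTheory.MvPolynomial.Homogeneous
import Mathlib.RingTheory.MvPolynomial.EulerIdentity
import Mathlib.RingTheory.Finiteness.Subalgebra
import Mathlib.RingTheory.Polynomial.Basic
import Mathlib.Algebra.MvPolynomial.Variables

namespace Vale.Agent.P176

open MvPolynomial

variable {k : Type} [Field k]

variable (k) in
/-- Span of the generators. -/
noncomputable def gens : Submodule k (Env k) := Submodule.span k (Set.range (gen k))

variable (k) in
/-- The elements of degree `d`. -/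
noncomputable def piece (d : ℤ) : Submodule k (Env k) :=
  if 0 ≤ d then gens k ^ d.toNat else ⊥

theorem piece_nat (n : ℕ) : piece k (n : ℤ) = gens k ^ n := by simp [piece]

theorem piece_neg {d : ℤ} (h : d < 0) : piece k d = ⊥ := if_neg (not_le.2 h)

theorem eq_zero_of_mem_piece_neg {d : ℤ} (h : d < 0) {u : Env k} (hu : u ∈ piece k d) : u = 0 := by
  simpa [piece_neg h] using hu

theorem gen_mem_piece (i : Fin 5) : gen k i ∈ piece k 1 := by
  rw [show (1 : ℤ) = ((1 : ℕ) : ℤ) from rfl, piece_nat, pow_one]
  exact Submodule.subset_span ⟨i, rfl⟩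

theorem one_mem_piece : (1 : Env k) ∈ piece k 0 := by
  rw [show (0 : ℤ) = ((0 : ℕ) : ℤ) from rfl, piece_nat, pow_zero]
  exact Submodule.mem_one.2 ⟨1, map_one _⟩

theorem mul_mem_piece {a b : ℤ} {u w : Env k} (hu : u ∈ piece k a) (hw : w ∈ piece k b) :
    u * w ∈ piece k (a + b) := by
  rcases lt_or_ge a 0 with ha | ha
  · simp [eq_zero_of_mem_piece_neg ha hu]
  rcases lt_or_ge b 0 with hb | hb
  · simp [eq_zero_of_mem_piece_neg hb hw]
  obtain ⟨m, rfl⟩ := Int.eq_ofNat_of_zero_le ha
  obtain ⟨n, rfl⟩ := Int.eq_ofNat_of_zero_le hb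
  rw [piece_nat] at hu hw
  rw [← Nat.cast_add, piece_nat, pow_add]
  exact Submodule.mul_mem_mul hu hw

theorem gens_fg : (gens k).FG := Submodule.fg_span (Set.finite_range _)

theorem piece_fg (d : ℤ) : (piece k d).FG := by
  unfold piece
  split
  · exact gens_fg.pow _
  · exact Submodule.fg_bot

instance finite_piece (d : ℤ) : Module.Finite k (piece k d) :=
  Module.Finite.iff_fg.2 (piece_fg d)

theorem op_homogeneous {p : MvPolynomial (Fin 5) k} {n : ℕ} (hp : p.IsHomogeneous n) (i : Fin 5) :
    (op i p).IsHomogeneous (n + 1) := by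
  have hX : ∀ j : Fin 5, (X j * p : MvPolynomial (Fin 5) k).IsHomogeneous (n + 1) := fun j => by
    rw [add_comm]; exact (isHomogeneous_X k j).mul hp
  have hd : ∀ (j : Fin 5) (q : MvPolynomial (Fin 5) k) (m : ℕ), q.IsHomogeneous m →
      (pderiv j q).IsHomogeneous (m - 1) := fun j q m hq => hq.pderiv
  have hz : ∀ j : Fin 5, n = 0 → pderiv j p = 0 := by
    intro j hn
    subst hn
    obtain ⟨c, rfl⟩ : ∃ c, p = C c := by
      refine ⟨coeff 0 p, ?_⟩
      exact (totalDegree_eq_zero_iff_eq_C).1 (Nat.le_zero.1 hp.totalDegree_le)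
    exact pderiv_C
  have h1 : ∀ a b : Fin 5, ((X a : MvPolynomial (Fin 5) k) * pderiv b p).IsHomogeneous n := by
    intro a b
    rcases Nat.eq_zero_or_pos n with hn | hn
    · simp [hz b hn, isHomogeneous_zero]
    · have := (isHomogeneous_X k a).mul (hd b p n hp)
      rwa [show 1 + (n - 1) = n by omega] at this
  have h2 : ∀ a b c : Fin 5,
      ((X a : MvPolynomial (Fin 5) k) * pderiv b (pderiv c p)).IsHomogeneous (n - 1) := by
    intro a b c
    rcases Nat.lt_or_ge n 2 with hn | hn
    · have : pderiv b (pderiv c p) = 0 := by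
        have h0 := hd c p n hp
        rw [show n - 1 = 0 by omega] at h0
        obtain ⟨r, hr⟩ : ∃ r, pderiv c p = C r :=
          ⟨_, (totalDegree_eq_zero_iff_eq_C).1 (Nat.le_zero.1 h0.totalDegree_le)⟩
        rw [hr, pderiv_C]
      simp [this, isHomogeneous_zero]
    · have := (isHomogeneous_X k a).mul (hd b _ _ (hd c p n hp))
      rwa [show 1 + (n - 1 - 1) = n - 1 by omega] at this
  have hT : ∀ q : MvPolynomial (Fin 5) k, q.IsHomogeneous n →
      (X 4 * q).IsHomogeneous (n + 1) := fun q hq => by
    rw [add_comm]; exact (isHomogeneous_X k 4).mul hq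
  rw [op_apply]
  fin_cases i
  · exact hX 0
  · refine (IsHomogeneous.add (IsHomogeneous.add (hX 1) (hT _ (h1 2 0))) ?_)
    rcases Nat.eq_zero_or_pos n with hn | hn
    · simp [hz 0 hn, isHomogeneous_zero]
    · have := ((isHomogeneous_X k (4 : Fin 5)).mul (isHomogeneous_X k 4)).mul
        ((IsHomogeneous.add (h2 1 1 0) (h2 1 1 0)).sub (h2 0 0 0))
      rwa [show 1 + 1 + (n - 1) = n + 1 by omega] at this
  · exact IsHomogeneous.add (hX 2)
      (IsHomogeneous.add (hT _ ((h1 1 1).sub (h1 0 0))) (hT _ ((h1 1 1).sub (h1 0 0))))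
  · exact hX 3
  · exact hX 4

theorem symb_mem {n : ℕ} {u : Env k} (hu : u ∈ gens k ^ n) : (symb u).IsHomogeneous n := by
  induction n generalizing u with
  | zero =>
    rw [pow_zero] at hu
    obtain ⟨c, rfl⟩ := Submodule.mem_one.1 hu
    simp [symb, Module.algebraMap_end_apply, MvPolynomial.smul_eq_C_mul, isHomogeneous_C]
  | succ n ih =>
    rw [pow_succ'] at hu
    refine Submodule.mul_induction_on hu (fun a ha b hb => ?_)
      (fun x y p q => by rw [map_add]; exact p.add q)
    ·
      rw [symb_mul]
      induction ha using Submodule.span_induction with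
      | mem x hx =>
        obtain ⟨i, rfl⟩ := hx
        rw [act, envLift_gen]
        exact op_homogeneous (ih hb) i
      | zero => simp [isHomogeneous_zero]
      | add x y _ _ p q => rw [map_add, LinearMap.add_apply]; exact p.add q
      | smul c x _ p =>
        rw [map_smul, LinearMap.smul_apply]
        exact Submodule.smul_mem (homogeneousSubmodule (Fin 5) k (n + 1)) c p

theorem pbw_mem {n : ℕ} {p : MvPolynomial (Fin 5) k} (hp : p.IsHomogeneous n) :
    pbw p ∈ gens k ^ n := by
  rw [p.as_sum, map_sum]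
  refine Submodule.sum_mem _ fun s hs => ?_
  have hdeg : s 0 + (s 1 + (s 2 + (s 3 + s 4))) = n := by
    have := hp (mem_support_iff.1 hs)
    simp [Finsupp.weight_apply, Finsupp.sum_fintype, Fin.sum_univ_five] at this
    omega
  have : monomial s (coeff s p) =
      coeff s p • (basisMonomials (Fin 5) k s) := by simp [coe_basisMonomials, smul_monomial]
  rw [this, map_smul, pbw, Module.Basis.constr_basis]
  refine Submodule.smul_mem _ _ ?_
  have hg : ∀ (i : Fin 5) (a : ℕ), gen k i ^ a ∈ gens k ^ a := fun i a =>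
    Submodule.pow_mem_pow (gens k)
      (show gen k i ∈ gens k from Submodule.subset_span (Set.mem_range_self i)) a
  rw [← hdeg, pow_add, pow_add, pow_add, pow_add]
  exact Submodule.mul_mem_mul (hg _ _) (Submodule.mul_mem_mul (hg _ _)
    (Submodule.mul_mem_mul (hg _ _) (Submodule.mul_mem_mul (hg _ _) (hg _ _))))

theorem symb_gen_four_mul (w : Env k) : symb (gen k 4 * w) = X 4 * symb w := by
  rw [symb_mul, act, envLift_gen]; rfl

theorem gen_four_injective {u w : Env k} (h : gen k 4 * u = gen k 4 * w) : u = w := by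
  have := congrArg symb h
  rw [symb_gen_four_mul, symb_gen_four_mul] at this
  rw [← pbw_symb u, mul_left_cancel₀ (X_ne_zero _) this, pbw_symb]

theorem mem_piece_of_gen_four_mul {d : ℤ} {w : Env k} (h : gen k 4 * w ∈ piece k (d + 1)) :
    w ∈ piece k d := by
  rcases lt_or_ge (d + 1) 0 with hd | hd
  · have h0 := eq_zero_of_mem_piece_neg hd h
    rw [gen_four_injective (h0.trans (mul_zero _).symm)]
    exact Submodule.zero_mem _
  obtain ⟨m, hm⟩ := Int.eq_ofNat_of_zero_le hd
  rw [hm, piece_nat] at h
  have hs := symb_mem h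
  rw [symb_gen_four_mul] at hs
  rcases m with _ | m
  · have hw : symb w = 0 := by
      by_contra hne
      obtain ⟨s, hs'⟩ := ne_zero_iff.1 hne
      have := hs (d := Finsupp.single (4 : Fin 5) 1 + s) (by rwa [coeff_X_mul])
      simp [Finsupp.weight_apply, Finsupp.sum_fintype, Fin.sum_univ_five] at this
    rw [← pbw_symb w, hw, map_zero]
    exact Submodule.zero_mem _
  · have hw : (symb w).IsHomogeneous m := by
      intro s hs'
      have := hs (d := Finsupp.single (4 : Fin 5) 1 + s) (by rwa [coeff_X_mul])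
      simp [Finsupp.weight_apply, Finsupp.sum_fintype, Fin.sum_univ_five] at this ⊢
      omega
    rw [← pbw_symb w, show d = (m : ℤ) by omega, piece_nat]
    exact pbw_mem hw

/-! ### Setting `t = 0` -/

/-- The quotient map to the symmetric algebra. -/
noncomputable def proj : Env k →ₐ[k] MvPolynomial (Fin 4) k :=
  envLift ![X 0, X 1, X 2, X 3, 0] (by constructor <;> intros <;> simp [mul_comm])

/-- Substitution `X₄ = 0`. -/
noncomputable def sub4 : MvPolynomial (Fin 5) k →ₐ[k] MvPolynomial (Fin 4) k :=
  aeval ![X 0, X 1, X 2, X 3, 0]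

theorem proj_pbw (p : MvPolynomial (Fin 5) k) : proj (pbw p) = sub4 p := by
  induction p using mon_induction with
  | h0 => simp
  | ha p q hp hq => simp [hp, hq]
  | hs r p hp => simp [hp]
  | hm a c b d m =>
    rw [pbw_mon, mon_eq]
    simp [word, proj, sub4, mul_assoc]

theorem proj_eq (u : Env k) : proj u = sub4 (symb u) := by rw [← proj_pbw, pbw_symb]

theorem proj_mem {n : ℕ} {u : Env k} (hu : u ∈ piece k (n : ℤ)) : (proj u).IsHomogeneous n := by
  rw [piece_nat] at hu
  rw [proj_eq, sub4]
  have := (symb_mem hu).aeval ![X 0, X 1, X 2, X 3, (0 : MvPolynomial (Fin 4) k)] (n := 1)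
    (fun i => by fin_cases i <;> simp [isHomogeneous_X, isHomogeneous_zero])
  rwa [one_mul] at this

/-- Lifting from the symmetric algebra. -/
noncomputable def lift4 (q : MvPolynomial (Fin 4) k) : Env k := pbw (rename Fin.castSucc q)

theorem proj_lift4 (q : MvPolynomial (Fin 4) k) : proj (lift4 q) = q := by
  rw [lift4, proj_pbw, sub4, aeval_rename]
  conv_rhs => rw [← aeval_X_left_apply q]
  refine DFunLike.congr_fun (congrArg aeval (funext fun i => ?_)) q
  fin_cases i <;> simp

theorem lift4_mem {n : ℕ} {q : MvPolynomial (Fin 4) k} (hq : q.IsHomogeneous n) :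
    lift4 q ∈ piece k (n : ℤ) := by
  rw [piece_nat]
  exact pbw_mem hq.rename_isHomogeneous

theorem exists_of_proj_eq_zero {u : Env k} (h : proj u = 0) : ∃ w, u = gen k 4 * w := by
  rw [proj_eq] at h
  obtain ⟨q, hq⟩ : (X 4 : MvPolynomial (Fin 5) k) ∣ symb u := by
    have h2 : ∀ p : MvPolynomial (Fin 5) k,
        (X 4 : MvPolynomial (Fin 5) k) ∣ p - rename Fin.castSucc (sub4 p) := by
      intro p
      induction p using MvPolynomial.induction_on with
      | C a => simp [sub4]
      | add p q hp hq =>
        rw [map_add, map_add]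
        exact (dvd_add hp hq).trans (dvd_of_eq (by ring))
      | mul_X p i hp =>
        rw [map_mul, map_mul]
        by_cases hi : i = 4
        · subst hi; simp [sub4]
        · have : rename Fin.castSucc (sub4 (X i : MvPolynomial (Fin 5) k)) = X i := by
            fin_cases i <;> simp_all [sub4]
          rw [this, ← sub_mul]
          exact hp.mul_right _
    simpa [h] using h2 (symb u)
  refine ⟨pbw q, ?_⟩
  rw [gen_mul_pbw, op_apply, ← pbw_symb u, hq]
  rfl

end Vale.Agent.P176
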