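import Mathlib.CategoryTheory.Abelian.Projective.Dimension
import Mathlib.Algebra.Homology.DerivedCategory.Ext.ExactSequences
import Mathlib.Algebra.Category.ModuleCat.Ext.HasExt
import Mathlib.Algebra.Category.ModuleCat.Projective
import Mathlib.Algebra.Homology.ShortComplex.ModuleCat

/-!
Homological bookkeeping: finite resolutions and the recursion that makes projective dimensions
grow without bound.
-/

universe w v u

namespace Vale.Agent.P176

open CategoryTheory CategoryTheory.Abelian Limits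

variable {C : Type u} [Category.{v} C] [Abelian C] [HasExt.{w} C]

/-- exact `0 → X1 → X2 → X3 → 0` -/
def IsSES (X1 X2 X3 : C) : Prop :=
  ∃ S : ShortComplex C, S.ShortExact ∧ Nonempty (S.X₁ ≅ X1) ∧ Nonempty (S.X₂ ≅ X2) ∧
    Nonempty (S.X₃ ≅ X3)

/-- finite projective dimension, and no higher `Ext` into `N` -/
def Tame (N M : C) : Prop :=
  (∃ n, HasProjectiveDimensionLT M n) ∧ ∀ i, 1 ≤ i → ∀ e : Ext M N i, e = 0

omit [HasExt.{w} C] in
theorem finitePd_iso {X Y : C} (e : X ≅ Y) (h : ∃ n, HasProjectiveDimensionLT X n) :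
    ∃ n, HasProjectiveDimensionLT Y n := by
  obtain ⟨n, hn⟩ := h
  exact ⟨n, hasProjectiveDimensionLT_of_iso e n⟩

theorem extZero_iso {X Y N : C} (e : X ≅ Y) {i : ℕ} (h : ∀ x : Ext X N i, x = 0)
    (y : Ext Y N i) : y = 0 := by
  have h1 := h ((Ext.mk₀ e.hom).comp y (zero_add i))
  calc y = (Ext.mk₀ e.inv).comp ((Ext.mk₀ e.hom).comp y (zero_add i)) (zero_add i) := by
        rw [Ext.mk₀_comp_mk₀_assoc, e.inv_hom_id, Ext.mk₀_id_comp]
    _ = 0 := by rw [h1, Ext.comp_zero]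

theorem ext_ne_zero_iso {X Y N : C} (e : X ≅ Y) {i : ℕ} (h : ∃ x : Ext X N i, x ≠ 0) :
    ∃ y : Ext Y N i, y ≠ 0 := by
  by_contra hc
  push Not at hc
  obtain ⟨x, hx⟩ := h
  exact hx (extZero_iso e.symm hc x)

omit [HasExt.{w} C] in
theorem IsSES.finitePd₂ {X1 X2 X3 : C} (h : IsSES X1 X2 X3)
    (h1 : ∃ n, HasProjectiveDimensionLT X1 n) (h3 : ∃ n, HasProjectiveDimensionLT X3 n) :
    ∃ n, HasProjectiveDimensionLT X2 n := by
  obtain ⟨S, hS, ⟨e1⟩, ⟨e2⟩, ⟨e3⟩⟩ := h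
  obtain ⟨n, hn⟩ := finitePd_iso e1.symm h1
  obtain ⟨m, hm⟩ := finitePd_iso e3.symm h3
  have := hasProjectiveDimensionLT_of_ge S.X₁ n (max n m) (le_max_left _ _)
  have := hasProjectiveDimensionLT_of_ge S.X₃ m (max n m) (le_max_right _ _)
  exact finitePd_iso e2 ⟨_, hS.hasProjectiveDimensionLT_X₂ (max n m) ‹_› ‹_›⟩

omit [HasExt.{w} C] in
theorem IsSES.finitePd₃ {X1 X2 X3 : C} (h : IsSES X1 X2 X3)
    (h1 : ∃ n, HasProjectiveDimensionLT X1 n) (h2 : ∃ n, HasProjectiveDimensionLT X2 n) :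
    ∃ n, HasProjectiveDimensionLT X3 n := by
  obtain ⟨S, hS, ⟨e1⟩, ⟨e2⟩, ⟨e3⟩⟩ := h
  obtain ⟨n, hn⟩ := finitePd_iso e1.symm h1
  obtain ⟨m, hm⟩ := finitePd_iso e2.symm h2
  have := hasProjectiveDimensionLT_of_ge S.X₁ n (max n m) (le_max_left _ _)
  have := hasProjectiveDimensionLT_of_ge S.X₂ m (max n m + 1) (by omega)
  exact finitePd_iso e3 ⟨_, hS.hasProjectiveDimensionLT_X₃ (max n m) ‹_› ‹_›⟩

/-- `Ext` vanishing of the quotient from the outer and middle terms. -/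
theorem IsSES.ext_zero₃ {X1 X2 X3 N : C} (h : IsSES X1 X2 X3) {i : ℕ}
    (h1 : ∀ e : Ext X1 N i, e = 0) (h2 : ∀ e : Ext X2 N (i + 1), e = 0)
    (x : Ext X3 N (i + 1)) : x = 0 := by
  obtain ⟨S, hS, ⟨e1⟩, ⟨e2⟩, ⟨e3⟩⟩ := h
  refine extZero_iso e3 (fun y => ?_) x
  obtain ⟨z, rfl⟩ := Ext.contravariant_sequence_exact₃ hS N y (extZero_iso e2.symm h2 _)
    (Nat.add_comm 1 i)
  rw [extZero_iso e1.symm h1 z, Ext.comp_zero]

/-- The connecting map is injective when `Ext` of the middle term vanishes. -/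
theorem IsSES.ext_ne_zero₃ {X1 X2 X3 N : C} (h : IsSES X1 X2 X3) {i : ℕ}
    (h2 : ∀ e : Ext X2 N i, e = 0) (h1 : ∃ e : Ext X1 N i, e ≠ 0) :
    ∃ e : Ext X3 N (i + 1), e ≠ 0 := by
  obtain ⟨S, hS, ⟨e1⟩, ⟨e2⟩, ⟨e3⟩⟩ := h
  refine ext_ne_zero_iso e3 ?_
  obtain ⟨x, hx⟩ := ext_ne_zero_iso e1.symm h1
  refine ⟨hS.extClass.comp x (Nat.add_comm 1 i), fun hc => hx ?_⟩
  obtain ⟨y, rfl⟩ := Ext.contravariant_sequence_exact₁ hS N x (Nat.add_comm 1 i) hc
  rw [extZero_iso e2.symm h2 y, Ext.comp_zero]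

theorem ext_zero_of_hom {X N : C} (h : ∀ f : X ⟶ N, f = 0) (e : Ext X N 0) : e = 0 := by
  obtain ⟨f, rfl⟩ := (Ext.mk₀_bijective X N).2 e
  rw [h f, Ext.mk₀_zero]

omit [HasExt.{w} C] in
theorem hom_zero_of_ses {X1 X2 X3 N : C} (h : IsSES X1 X2 X3) (h2 : ∀ f : X2 ⟶ N, f = 0)
    (f : X3 ⟶ N) : f = 0 := by
  obtain ⟨S, hS, -, ⟨e2⟩, ⟨e3⟩⟩ := h
  have := hS.epi_g
  have h0 : S.g ≫ e3.hom ≫ f = 0 := by
    rw [← cancel_epi e2.inv, h2 (e2.inv ≫ S.g ≫ e3.hom ≫ f), comp_zero]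
  rw [← cancel_epi e3.hom, comp_zero, ← cancel_epi S.g, h0, comp_zero]

/-- (4a) finite resolutions by projectives without maps to `N` give tame objects. -/
theorem tame_of_resolution (N M : C) (n : ℕ) (P K : ℕ → C) (h0 : Nonempty (K 0 ≅ M))
    (hP : ∀ i, i ≤ n → Projective (P i)) (hN : ∀ i, 1 ≤ i → i ≤ n → ∀ f : P i ⟶ N, f = 0)
    (hses : ∀ i, i ≤ n → IsSES (K (i + 1)) (P i) (K i)) (hK : IsZero (K (n + 1))) :
    Tame N M := by
  obtain ⟨e0⟩ := h0
  suffices h : Tame N (K 0) by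
    exact ⟨finitePd_iso e0 h.1, fun i hi => extZero_iso e0 (h.2 i hi)⟩
  clear e0
  induction n generalizing P K with
  | zero =>
    have := hP 0 le_rfl
    refine ⟨(hses 0 le_rfl).finitePd₃ ⟨0, hK.hasProjectiveDimensionLT_zero⟩ ⟨1, inferInstance⟩,
      fun i hi => ?_⟩
    obtain ⟨i, rfl⟩ := Nat.exists_eq_add_of_le' hi
    refine (hses 0 le_rfl).ext_zero₃ ?_ (fun e => Ext.eq_zero_of_projective e)
    have := hK.hasProjectiveDimensionLT_zero
    exact fun e => e.eq_zero_of_hasProjectiveDimensionLT 0 (Nat.zero_le i)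
  | succ n ih =>
    have := hP 0 (Nat.zero_le _)
    have h1 : Tame N (K 1) := ih (fun i => P (i + 1)) (fun i => K (i + 1))
      (fun i hi => hP (i + 1) (by omega)) (fun i hi hi' => hN (i + 1) (by omega) (by omega))
      (fun i hi => hses (i + 1) (by omega)) hK
    refine ⟨(hses 0 (Nat.zero_le _)).finitePd₃ h1.1 ⟨1, inferInstance⟩, fun i hi => ?_⟩
    obtain ⟨i, rfl⟩ := Nat.exists_eq_add_of_le' hi
    refine (hses 0 (Nat.zero_le _)).ext_zero₃ ?_ (fun e => Ext.eq_zero_of_projective e)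
    rcases i with _ | i
    · exact ext_zero_of_hom (hom_zero_of_ses (hses 1 (by omega)) (hN 1 le_rfl (by omega)))
    · exact h1.2 (i + 1) (by omega)

omit [HasExt.{w} C] in
theorem isSES_biprod (X Y : C) : IsSES X (X ⊞ Y) Y :=
  ⟨ShortComplex.mk (biprod.inl : X ⟶ X ⊞ Y) biprod.snd (by simp),
    (ShortComplex.Splitting.ofHasBinaryBiproduct X Y).shortExact,
    ⟨Iso.refl _⟩, ⟨Iso.refl _⟩, ⟨Iso.refl _⟩⟩

/-- (4b) the recursion. -/
theorem unbounded_of_recursion (N : C) (Sa Sb J J' I Y : ℕ → C)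
    (hI : ∀ k, IsSES (Y k) (I k) (Sa (k + 1))) (hJ : ∀ k, IsSES (Sa k) (J k) (Sb k))
    (hY : ∀ k, Nonempty (Y k ≅ Sb k ⊞ (J' k ⊞ Sa k))) (h0 : IsZero (Sa 0))
    (tI : ∀ k, Tame N (I k)) (tJ : ∀ k, Tame N (J k)) (tJ' : ∀ k, Tame N (J' k))
    (hJN : ∀ k, ∀ f : J k ⟶ N, f = 0) (h1 : ∃ f : Sa 1 ⟶ N, f ≠ 0) :
    (∀ k, ∃ n, HasProjectiveDimensionLT (Sa k) n) ∧
      ∀ n : ℕ, (n : WithBot ℕ∞) ≤ projectiveDimension (Sa (n + 1)) := by
  constructor
  · intro k
    induction k with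
    | zero => exact ⟨0, h0.hasProjectiveDimensionLT_zero⟩
    | succ k ih =>
      obtain ⟨e⟩ := hY k
      have hb := (hJ k).finitePd₃ ih (tJ k).1
      have hs := (isSES_biprod (J' k) (Sa k)).finitePd₂ (tJ' k).1 ih
      exact (hI k).finitePd₃
        (finitePd_iso e.symm ((isSES_biprod (Sb k) (J' k ⊞ Sa k)).finitePd₂ hb hs)) (tI k).1
  · have key : ∀ j, ∃ e : Ext (Sa (j + 1)) N (2 * j), e ≠ 0 := by
      intro j
      induction j with
      | zero =>
        obtain ⟨f, hf⟩ := h1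
        exact ⟨Ext.mk₀ f, fun h => hf ((Ext.mk₀_eq_zero_iff f).1 h)⟩
      | succ j ih =>
        have hb : ∃ e : Ext (Sb (j + 1)) N (2 * j + 1), e ≠ 0 := by
          refine (hJ (j + 1)).ext_ne_zero₃ ?_ ih
          rcases j with _ | j
          · exact ext_zero_of_hom (hJN _)
          · exact (tJ _).2 _ (by omega)
        obtain ⟨i⟩ := hY (j + 1)
        obtain ⟨x, hx⟩ := hb
        refine (hI (j + 1)).ext_ne_zero₃ ((tI _).2 _ (by omega))
          (ext_ne_zero_iso i.symm ⟨(Ext.mk₀ biprod.fst).comp x (zero_add _), fun hc => hx ?_⟩)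
        calc x = (Ext.mk₀ (biprod.inl : Sb (j + 1) ⟶ Sb (j + 1) ⊞ (J' (j + 1) ⊞ Sa (j + 1)))).comp ((Ext.mk₀ biprod.fst).comp x (zero_add _))
              (zero_add _) := by
              rw [Ext.mk₀_comp_mk₀_assoc, biprod.inl_fst, Ext.mk₀_id_comp]
          _ = 0 := by rw [hc, Ext.comp_zero]
    intro n
    rw [projectiveDimension_ge_iff]
    intro hn
    obtain ⟨e, he⟩ := key n
    exact he (e.eq_zero_of_hasProjectiveDimensionLT n (by omega))

section Modules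

variable {A : Type u} [Ring A]

/-- (4c) short exact sequences of modules. -/
theorem isSES_of_linearMap {X Y Z : Type u} [AddCommGroup X] [Module A X] [AddCommGroup Y]
    [Module A Y] [AddCommGroup Z] [Module A Z] (f : X →ₗ[A] Y) (g : Y →ₗ[A] Z)
    (hf : Function.Injective f) (hg : Function.Surjective g) (H : Function.Exact f g) :
    IsSES (ModuleCat.of A X) (ModuleCat.of A Y) (ModuleCat.of A Z) :=
  ⟨g.shortComplexKer, LinearMap.shortExact_shortComplexKer hg,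
    ⟨((LinearEquiv.ofEq _ _ (LinearMap.exact_iff.1 H)).trans
      (LinearEquiv.ofInjective f hf).symm).toModuleIso⟩, ⟨Iso.refl _⟩, ⟨Iso.refl _⟩⟩

/-- The objects through which a complex factors. -/
def syzygyObj (M : Type u) [AddCommGroup M] [Module A M] (P : ℕ → Type u)
    [∀ i, AddCommGroup (P i)] [∀ i, Module A (P i)] (d : ∀ i, P (i + 1) →ₗ[A] P i) :
    ℕ → ModuleCat.{u} A
  | 0 => ModuleCat.of A M
  | i + 1 => ModuleCat.of A (LinearMap.range (d i))

/-- (4c) a finite exact complex of projectives gives a tame module. -/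
theorem tame_of_complex (N : ModuleCat.{u} A) (M : Type u) [AddCommGroup M] [Module A M]
    (n : ℕ) (P : ℕ → Type u) [∀ i, AddCommGroup (P i)] [∀ i, Module A (P i)]
    (d : ∀ i, P (i + 1) →ₗ[A] P i) (ε : P 0 →ₗ[A] M) (hε : Function.Surjective ε)
    (h0 : Function.Exact (d 0) ε) (hd : ∀ i, i < n → Function.Exact (d (i + 1)) (d i))
    (hn : Function.Injective ε ∧ n = 0 ∨ ∃ m, n = m + 1 ∧ Function.Injective (d m))
    (hP : ∀ i, i ≤ n → Module.Projective A (P i))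
    (hN : ∀ i, 1 ≤ i → i ≤ n → ∀ f : P i →ₗ[A] N, f = 0) :
    Tame N (ModuleCat.of A M) := by
  refine tame_of_resolution N (ModuleCat.of A M) n (fun i => ModuleCat.of A (P i))
    (syzygyObj M P d) ⟨Iso.refl _⟩ (fun i hi => (IsProjective.iff_projective (P i)).1 (hP i hi))
    (fun i h1 h2 f => ModuleCat.hom_ext (hN i h1 h2 f.hom)) ?_ ?_
  · intro i hi
    rcases i with _ | i
    · exact isSES_of_linearMap (LinearMap.range (d 0)).subtype ε (Submodule.injective_subtype _)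
        hε (LinearMap.exact_iff.2 (by rw [LinearMap.exact_iff.1 h0, Submodule.range_subtype]))
    · exact isSES_of_linearMap (LinearMap.range (d (i + 1))).subtype (d i).rangeRestrict
        (Submodule.injective_subtype _) (LinearMap.surjective_rangeRestrict _)
        (LinearMap.exact_iff.2 (by
          rw [LinearMap.ker_rangeRestrict, LinearMap.exact_iff.1 (hd i (by omega)),
            Submodule.range_subtype]))
  · refine ModuleCat.isZero_of_iff_subsingleton.2 (?_ : Subsingleton (LinearMap.range (d n)))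
    rw [Submodule.subsingleton_iff_eq_bot]
    rcases hn with ⟨hi, rfl⟩ | ⟨m, rfl, hm⟩
    · rw [← LinearMap.exact_iff.1 h0, LinearMap.ker_eq_bot.2 hi]
    · rw [← LinearMap.exact_iff.1 (hd m (by omega)), LinearMap.ker_eq_bot.2 hm]

/-- (4c) variant: the projectives vanish above degree `n`. -/
theorem tame_of_bounded_complex (N : ModuleCat.{u} A) (M : Type u) [AddCommGroup M] [Module A M]
    (n : ℕ) (P : ℕ → Type u) [∀ i, AddCommGroup (P i)] [∀ i, Module A (P i)]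
    (d : ∀ i, P (i + 1) →ₗ[A] P i) (ε : P 0 →ₗ[A] M) (hε : Function.Surjective ε)
    (h0 : Function.Exact (d 0) ε) (hd : ∀ i, Function.Exact (d (i + 1)) (d i))
    (hz : ∀ i, n < i → Subsingleton (P i))
    (hP : ∀ i, i ≤ n → Module.Projective A (P i))
    (hN : ∀ i, 1 ≤ i → i ≤ n → ∀ f : P i →ₗ[A] N, f = 0) :
    Tame N (ModuleCat.of A M) := by
  refine tame_of_complex N M n P d ε hε h0 (fun i _ => hd i) ?_ hP hN
  have hr : LinearMap.range (d n) = ⊥ := by
    have := hz (n + 1) (Nat.lt_succ_self n)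
    exact LinearMap.range_eq_bot.2 (Subsingleton.elim _ _)
  rcases n with _ | m
  · exact Or.inl ⟨LinearMap.ker_eq_bot.1 (by rw [LinearMap.exact_iff.1 h0, hr]), rfl⟩
  · exact Or.inr ⟨m, rfl, LinearMap.ker_eq_bot.1 (by rw [LinearMap.exact_iff.1 (hd m), hr])⟩

end Modules

end Vale.Agent.P176
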