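import Vale.Agent.P176.Graded
import Mathlib.Algebra.CharZero.Defs
import Mathlib.Tactic.LinearCombination

/-!
# The Chevalley-Eilenberg complex in each degree
-/

namespace Vale.Agent.P176

open MvPolynomial Matrix

variable {k : Type} [Field k]

section Matrices

variable {R : Type} [Ring R] (g : Fin 5 → R)

/-- First differential. -/
def cx1 : Matrix (Fin 4) (Fin 1) R := !![g 0; g 1; g 2; g 3]

/-- Second differential (rows `fe, fh, fz, eh, ez, hz`). -/
def cx2 : Matrix (Fin 6) (Fin 4) R :=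
  !![-g 1, g 0, g 4, 0; -g 2 - (g 4 + g 4), 0, g 0, 0; -g 3, 0, 0, g 0;
    0, -g 2 + (g 4 + g 4), g 1, 0; 0, -g 3, 0, g 1; 0, 0, -g 3, g 2]

/-- Third differential (rows `feh, fez, fhz, ehz`). -/
def cx3 : Matrix (Fin 4) (Fin 6) R :=
  !![g 2, -g 1, 0, g 0, 0, 0; g 3, 0, -g 1, 0, g 0, g 4;
    0, g 3, -g 2 - (g 4 + g 4), 0, 0, g 0; 0, 0, 0, g 3, -g 2 + (g 4 + g 4), g 1]

/-- Fourth differential. -/
def cx4 : Matrix (Fin 1) (Fin 4) R := !![-g 3, g 2, -g 1, g 0]

variable {g} (hg : Sat g)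

include hg

theorem cx21 : cx2 g * cx1 g = 0 := by
  ext i j
  fin_cases j
  fin_cases i <;>
    simp [cx1, cx2, mul_apply, Fin.sum_univ_four, hg.ef, hg.he, hg.hf, hg.zc, sub_mul, add_mul,
      mul_add, mul_sub] <;> abel

theorem cx32 : cx3 g * cx2 g = 0 := by
  ext i j
  fin_cases i <;> fin_cases j <;>
    simp [cx2, cx3, mul_apply, Fin.sum_univ_six, hg.ef, hg.he, hg.hf, hg.zc 0, hg.zc 1, hg.zc 2, hg.zc 4, hg.tc 0, hg.tc 1, hg.tc 2, sub_mul,
      add_mul, mul_add, mul_sub] <;> abel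

theorem cx43 : cx4 g * cx3 g = 0 := by
  ext i j
  fin_cases i
  fin_cases j <;>
    simp [cx3, cx4, mul_apply, Fin.sum_univ_four, hg.ef, hg.he, hg.hf, hg.zc 0, hg.zc 1, hg.zc 2, hg.zc 4, hg.tc 0, hg.tc 1, hg.tc 2, sub_mul,
      add_mul, mul_add, mul_sub] <;> abel

end Matrices

section Commutative

/-- The images of the generators in the symmetric algebra. -/
noncomputable def symGen : Fin 5 → MvPolynomial (Fin 4) k := ![X 0, X 1, X 2, X 3, 0]

/-- All entries homogeneous of degree `m`. -/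
def Hom4 (m : ℕ) {P : Type} (z : P → MvPolynomial (Fin 4) k) : Prop := ∀ p, (z p).IsHomogeneous m

theorem euler4 {m : ℕ} {p : MvPolynomial (Fin 4) k} (hp : p.IsHomogeneous m) :
    X 0 * pderiv 0 p + X 1 * pderiv 1 p + X 2 * pderiv 2 p + X 3 * pderiv 3 p =
      (m : MvPolynomial (Fin 4) k) * p := by
  have := hp.sum_X_mul_pderiv
  simpa [Fin.sum_univ_four, nsmul_eq_mul] using this

variable [CharZero k]

theorem descend {m l : ℕ} (hml : m + l ≠ 0) {P Q : Type} [Fintype Q] {K : Matrix Q P (MvPolynomial (Fin 4) k)}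
    {z : P → MvPolynomial (Fin 4) k} {h : Q → MvPolynomial (Fin 4) k} (hh : Hom4 (m - 1) h)
    (e : h ᵥ* K = fun p => ((m + l : ℕ) : MvPolynomial (Fin 4) k) * z p) :
    ∃ y, Hom4 (m - 1) y ∧ y ᵥ* K = z := by
  refine ⟨fun q => C ((m + l : ℕ) : k)⁻¹ * h q, fun q => (hh q).C_mul _, funext fun p => ?_⟩
  have he := congrFun e p
  simp only [vecMul, dotProduct] at he ⊢
  simp only [mul_assoc, ← Finset.mul_sum, he]
  rw [← mul_assoc, ← map_natCast C, ← map_mul, inv_mul_cancel₀ (Nat.cast_ne_zero.2 hml), map_one,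
    one_mul]

theorem exact_sym0 {m : ℕ} (hm : m ≠ 0) {z : Fin 1 → MvPolynomial (Fin 4) k} (hz : Hom4 m z) :
    ∃ y, Hom4 (m - 1) y ∧ y ᵥ* cx1 symGen = z := by
  refine descend (l := 0) (by omega) (h := ![pderiv 0 (z 0), pderiv 1 (z 0), pderiv 2 (z 0),
    pderiv 3 (z 0)]) (fun q => by fin_cases q <;> exact (hz 0).pderiv) (funext fun p => ?_)
  fin_cases p
  simp [vecMul, dotProduct, cx1, symGen, Fin.sum_univ_four]
  linear_combination euler4 (hz 0)

theorem exact_sym1 {m : ℕ} {z : Fin 4 → MvPolynomial (Fin 4) k} (hz : Hom4 m z)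
    (h0 : z ᵥ* cx1 symGen = 0) : ∃ y, Hom4 (m - 1) y ∧ y ᵥ* cx2 symGen = z := by
  have hs : z 0 * X 0 + z 1 * X 1 + z 2 * X 2 + z 3 * X 3 = 0 := by
    have := congrFun h0 0
    simpa [vecMul, dotProduct, cx1, symGen, Fin.sum_univ_four] using this
  have d : ∀ i, pderiv i (z 0 * X 0 + z 1 * X 1 + z 2 * X 2 + z 3 * X 3) = 0 := fun i => by
    rw [hs, map_zero]
  refine descend (l := 1) (by omega) (h := ![pderiv 0 (z 1) - pderiv 1 (z 0),
    pderiv 0 (z 2) - pderiv 2 (z 0), pderiv 0 (z 3) - pderiv 3 (z 0),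
    pderiv 1 (z 2) - pderiv 2 (z 1), pderiv 1 (z 3) - pderiv 3 (z 1),
    pderiv 2 (z 3) - pderiv 3 (z 2)])
    (fun q => by fin_cases q <;> exact (hz _).pderiv.sub (hz _).pderiv) (funext fun p => ?_)
  have d0 := d 0
  have d1 := d 1
  have d2 := d 2
  have d3 := d 3
  simp [pderiv_mul, pderiv_X, Pi.single_apply] at d0 d1 d2 d3
  fin_cases p <;> simp [vecMul, dotProduct, cx2, symGen, Fin.sum_univ_six]
  · linear_combination euler4 (hz 0) - d0
  · linear_combination euler4 (hz 1) - d1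
  · linear_combination euler4 (hz 2) - d2
  · linear_combination euler4 (hz 3) - d3

theorem exact_sym2 {m : ℕ} {z : Fin 6 → MvPolynomial (Fin 4) k} (hz : Hom4 m z)
    (h0 : z ᵥ* cx2 symGen = 0) : ∃ y, Hom4 (m - 1) y ∧ y ᵥ* cx3 symGen = z := by
  have s0 : -(z 0 * X 1) - z 1 * X 2 - z 2 * X 3 = 0 := by
    have := congrFun h0 0
    simp [vecMul, dotProduct, cx2, symGen, Fin.sum_univ_six] at this
    linear_combination this
  have s1 : z 0 * X 0 - z 3 * X 2 - z 4 * X 3 = 0 := by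
    have := congrFun h0 1
    simp [vecMul, dotProduct, cx2, symGen, Fin.sum_univ_six] at this
    linear_combination this
  have s2 : z 1 * X 0 + z 3 * X 1 - z 5 * X 3 = 0 := by
    have := congrFun h0 2
    simp [vecMul, dotProduct, cx2, symGen, Fin.sum_univ_six] at this
    linear_combination this
  have s3 : z 2 * X 0 + z 4 * X 1 + z 5 * X 2 = 0 := by
    have := congrFun h0 3
    simp [vecMul, dotProduct, cx2, symGen, Fin.sum_univ_six] at this
    linear_combination this
  have a0 := congrArg (pderiv 1) s0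
  have a1 := congrArg (pderiv 2) s0
  have a2 := congrArg (pderiv 3) s0
  have b0 := congrArg (pderiv 0) s1
  have b1 := congrArg (pderiv 2) s1
  have b2 := congrArg (pderiv 3) s1
  have c0 := congrArg (pderiv 0) s2
  have c1 := congrArg (pderiv 1) s2
  have c2 := congrArg (pderiv 3) s2
  have e0 := congrArg (pderiv 0) s3
  have e1 := congrArg (pderiv 1) s3
  have e2 := congrArg (pderiv 2) s3
  simp [pderiv_mul, pderiv_X, Pi.single_apply] at a0 a1 a2 b0 b1 b2 c0 c1 c2 e0 e1 e2
  refine descend (l := 2) (by omega) (h := ![pderiv 0 (z 3) - pderiv 1 (z 1) + pderiv 2 (z 0),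
    pderiv 0 (z 4) - pderiv 1 (z 2) + pderiv 3 (z 0),
    pderiv 0 (z 5) - pderiv 2 (z 2) + pderiv 3 (z 1),
    pderiv 1 (z 5) - pderiv 2 (z 4) + pderiv 3 (z 3)])
    (fun q => by fin_cases q <;> exact ((hz _).pderiv.sub (hz _).pderiv).add (hz _).pderiv)
    (funext fun p => ?_)
  fin_cases p <;> simp [vecMul, dotProduct, cx3, symGen, Fin.sum_univ_four]
  · linear_combination euler4 (hz 0) - b0 + a0
  · linear_combination euler4 (hz 1) - c0 + a1
  · linear_combination euler4 (hz 2) - e0 + a2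
  · linear_combination euler4 (hz 3) - c1 + b1
  · linear_combination euler4 (hz 4) - e1 + b2
  · linear_combination euler4 (hz 5) - e2 + c2

theorem exact_sym3 {m : ℕ} {z : Fin 4 → MvPolynomial (Fin 4) k} (hz : Hom4 m z)
    (h0 : z ᵥ* cx3 symGen = 0) : ∃ y, Hom4 (m - 1) y ∧ y ᵥ* cx4 symGen = z := by
  have f := fun p => congrFun h0 p
  have s0 : z 0 * X 2 + z 1 * X 3 = 0 := by
    simpa [vecMul, dotProduct, cx3, symGen, Fin.sum_univ_four] using f 0
  have s1 : -(z 0 * X 1) + z 2 * X 3 = 0 := by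
    simpa [vecMul, dotProduct, cx3, symGen, Fin.sum_univ_four] using f 1
  have s2 : -(z 1 * X 1) - z 2 * X 2 = 0 := by
    have := f 2
    simp [vecMul, dotProduct, cx3, symGen, Fin.sum_univ_four] at this
    linear_combination this
  have s3 : z 0 * X 0 + z 3 * X 3 = 0 := by
    simpa [vecMul, dotProduct, cx3, symGen, Fin.sum_univ_four] using f 3
  have s4 : z 1 * X 0 - z 3 * X 2 = 0 := by
    have := f 4
    simp [vecMul, dotProduct, cx3, symGen, Fin.sum_univ_four] at this
    linear_combination this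
  have s5 : z 2 * X 0 + z 3 * X 1 = 0 := by
    simpa [vecMul, dotProduct, cx3, symGen, Fin.sum_univ_four] using f 5
  have a2 := congrArg (pderiv 2) s0
  have a3 := congrArg (pderiv 3) s0
  have b1 := congrArg (pderiv 1) s1
  have b3 := congrArg (pderiv 3) s1
  have c1 := congrArg (pderiv 1) s2
  have c2 := congrArg (pderiv 2) s2
  have d0 := congrArg (pderiv 0) s3
  have d3 := congrArg (pderiv 3) s3
  have e0 := congrArg (pderiv 0) s4
  have e2 := congrArg (pderiv 2) s4
  have g0 := congrArg (pderiv 0) s5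
  have g1 := congrArg (pderiv 1) s5
  simp [pderiv_mul, pderiv_X, Pi.single_apply] at a2 a3 b1 b3 c1 c2 d0 d3 e0 e2 g0 g1
  refine descend (l := 3) (by omega)
    (h := ![pderiv 0 (z 3) - pderiv 1 (z 2) + pderiv 2 (z 1) - pderiv 3 (z 0)])
    (fun q => by
      fin_cases q
      exact (((hz _).pderiv.sub (hz _).pderiv).add (hz _).pderiv).sub (hz _).pderiv)
    (funext fun p => ?_)
  fin_cases p <;> simp [vecMul, dotProduct, cx4, symGen]
  · linear_combination euler4 (hz 0) - d0 + b1 - a2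
  · linear_combination euler4 (hz 1) - e0 + c1 - a3
  · linear_combination euler4 (hz 2) - g0 + c2 - b3
  · linear_combination euler4 (hz 3) - g1 + e2 - d3

omit [CharZero k] in
theorem exact_sym4 {z : Fin 1 → MvPolynomial (Fin 4) k} (h0 : z ᵥ* cx4 symGen = 0) : z = 0 := by
  funext p
  fin_cases p
  have := congrFun h0 3
  simpa [vecMul, dotProduct, cx4, symGen, X_ne_zero] using this

end Commutative

end Vale.Agent.P176
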