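import Mathlib.Data.Matrix.Block
import Mathlib.Data.Matrix.Mul
import Mathlib.Data.Matrix.Basis
import Mathlib.LinearAlgebra.Matrix.Notation
import Mathlib.Data.Fintype.BigOperators
import Mathlib.Algebra.BigOperators.Fin
import Mathlib.Algebra.BigOperators.Ring.Finset
import Mathlib.Algebra.CharZero.Defs
import Mathlib.Algebra.Field.Basic
import Mathlib.Tactic.Ring
import Mathlib.Tactic.LinearCombination
import Mathlib.Tactic.FieldSimp
import Mathlib.Tactic.FinCases

/-!
# P176: representations of homogenised `U(gl₂)`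

Indices: `0 = f`, `1 = e`, `2 = h`, `3 = z`, `4 = t`.
-/

namespace Vale.Agent.P176.Reps

open Matrix

variable {k : Type*} [Field k]

/-- A banded matrix: entry `(i, j)` is `c j` if `i = j + d`, else `0`. -/
def bd (n m : ℕ) (d : ℤ) (c : ℤ → k) : Matrix (Fin n) (Fin m) k :=
  fun i j => if (i : ℤ) = (j : ℤ) + d then c j else 0

theorem bd_sum {n m p : ℕ} (d e : ℤ) (c c' : ℤ → k) (i : Fin n) (l : Fin p) :
    ∑ j : Fin m, bd n m d c i j * bd m p e c' j l =
      if (i : ℤ) = (l : ℤ) + e + d ∧ 0 ≤ (l : ℤ) + e ∧ (l : ℤ) + e < m then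
        c ((l : ℤ) + e) * c' l else 0 := by
  by_cases h : 0 ≤ (l : ℤ) + e ∧ (l : ℤ) + e < m
  · obtain ⟨h0, h1⟩ := h
    set j₀ : Fin m := ⟨((l : ℤ) + e).toNat, by omega⟩
    have hj : (j₀ : ℤ) = (l : ℤ) + e := by
      simp only [j₀]; omega
    rw [Finset.sum_eq_single j₀]
    · simp only [bd, hj, h0, h1, and_true]
      split_ifs <;> simp
    · intro j _ hne
      have : (j : ℤ) ≠ (l : ℤ) + e := fun hh => hne (Fin.ext (by omega))
      simp [bd, this]
    · simp
  · rw [Finset.sum_eq_zero, if_neg (fun hh => h hh.2)]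
    intro j _
    have : (j : ℤ) ≠ (l : ℤ) + e := fun hh => h ⟨by omega, by omega⟩
    simp [bd, this]

/-- The `n`-dimensional simple module with `z = c`, `t = 1`. -/
def L (n : ℕ) (c : k) : Fin 5 → Matrix (Fin n) (Fin n) k :=
  ![bd n n 1 (fun _ => 1),
    bd n n (-1) (fun j => (j : k) * ((n : k) - (j : k))),
    bd n n 0 (fun j => (n : k) - 1 - 2 * (j : k)),
    bd n n 0 (fun _ => c),
    bd n n 0 (fun _ => 1)]

theorem bd_zero_const {n : ℕ} (a : k) :
    bd n n 0 (fun _ => a) = a • (1 : Matrix (Fin n) (Fin n) k) := by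
  ext i j
  simp [bd, Matrix.one_apply, Fin.ext_iff]

theorem L_four (n : ℕ) (c : k) : L n c 4 = 1 := by
  simp [L, bd_zero_const]

theorem L_three (n : ℕ) (c : k) : L n c 3 = c • 1 := by
  simp [L, bd_zero_const]

theorem L_comm_ef (n : ℕ) (c : k) : L n c 1 * L n c 0 - L n c 0 * L n c 1 = L n c 2 := by
  ext i l
  have hi := i.isLt
  have hl := l.isLt
  simp only [L, Matrix.cons_val_zero, Matrix.cons_val_one, Matrix.cons_val, Matrix.sub_apply,
    Matrix.mul_apply, bd_sum]
  simp only [bd]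
  rcases eq_or_ne (i : ℤ) (l : ℤ) with h | h
  · by_cases h1 : (l : ℤ) + 1 < n <;> by_cases h2 : (0 : ℤ) < l
    · rw [if_pos (by omega), if_pos (by omega), if_pos (by omega)]; push_cast; ring
    · have : (l : ℤ) = 0 := by omega
      rw [if_pos (by omega), if_neg (by omega), if_pos (by omega), this]; push_cast; ring
    · have : ((n : ℤ) : k) = (((l : ℤ) + 1 : ℤ) : k) := by congr 1; omega
      push_cast at this
      rw [if_neg (by omega), if_pos (by omega), if_pos (by omega)]
      push_cast; linear_combination (-((l : k)) - 1) * this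
    · have hl0 : (l : ℤ) = 0 := by omega
      have : (n : k) = 1 := by
        have : n = 1 := by omega
        simp [this]
      rw [if_neg (by omega), if_neg (by omega), if_pos (by omega), hl0, this]; push_cast; ring
  · rw [if_neg (by omega), if_neg (by omega), if_neg (by omega)]; ring

theorem L_comm_he (n : ℕ) (c : k) :
    L n c 2 * L n c 1 - L n c 1 * L n c 2 = (2 : k) • L n c 1 := by
  ext i l
  have hi := i.isLt
  have hl := l.isLt
  simp only [L, Matrix.cons_val_one, Matrix.cons_val, Matrix.sub_apply,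
    Matrix.smul_apply, Matrix.mul_apply, bd_sum, smul_eq_mul]
  simp only [bd]
  rcases eq_or_ne (i : ℤ) ((l : ℤ) + -1) with h | h
  · rw [if_pos (by omega), if_pos (by omega), if_pos h]; push_cast; ring
  · rw [if_neg (by omega), if_neg (by omega), if_neg h]; ring

theorem L_comm_hf (n : ℕ) (c : k) :
    L n c 2 * L n c 0 - L n c 0 * L n c 2 = (-2 : k) • L n c 0 := by
  ext i l
  have hi := i.isLt
  have hl := l.isLt
  simp only [L, Matrix.cons_val_zero, Matrix.cons_val, Matrix.sub_apply,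
    Matrix.smul_apply, Matrix.mul_apply, bd_sum, smul_eq_mul]
  simp only [bd]
  rcases eq_or_ne (i : ℤ) ((l : ℤ) + 1) with h | h
  · rw [if_pos (by omega), if_pos (by omega), if_pos h]; push_cast; ring
  · rw [if_neg (by omega), if_neg (by omega), if_neg h]; ring

/-- `L n c` satisfies all relations of homogenised `U(gl₂)`. -/
theorem sat_L (n : ℕ) (c : k) :
    L n c 1 * L n c 0 - L n c 0 * L n c 1 = L n c 2 * L n c 4 ∧
    L n c 2 * L n c 1 - L n c 1 * L n c 2 = (2 : k) • (L n c 1 * L n c 4) ∧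
    L n c 2 * L n c 0 - L n c 0 * L n c 2 = (-2 : k) • (L n c 0 * L n c 4) ∧
    (∀ x, L n c 3 * L n c x = L n c x * L n c 3) ∧
    (∀ x, L n c 4 * L n c x = L n c x * L n c 4) := by
  refine ⟨?_, ?_, ?_, ?_, ?_⟩
  · rw [L_four, mul_one, L_comm_ef]
  · rw [L_four, mul_one, L_comm_he]
  · rw [L_four, mul_one, L_comm_hf]
  · intro x
    simp [L_three]
  · intro x
    simp [L_four]

/-- The two-dimensional representation, `z ↦ -1`, `t ↦ 0`. -/
def rho2 : Fin 5 → Matrix (Fin 2) (Fin 2) k :=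
  ![!![0, 0; 1, 0], !![0, 1; 0, 0], !![1, 0; 0, -1], -1, 0]

/-- The tensor product with `rho2`. -/
def tens {n : ℕ} (V : Fin 5 → Matrix (Fin n) (Fin n) k) (x : Fin 5) :
    Matrix (Fin 2 × Fin n) (Fin 2 × Fin n) k :=
  fun p q => (if p.1 = q.1 then V x p.2 q.2 else 0) + (if p.2 = q.2 then rho2 x p.1 q.1 else 0)

/-- The Casimir-type operator. -/
def thetaMat {n : ℕ} (V : Fin 5 → Matrix (Fin n) (Fin n) k) :
    Matrix (Fin 2 × Fin n) (Fin 2 × Fin n) k :=
  fun p q =>
    (!![V 2 + V 3 + 1, (2 : k) • V 0; (2 : k) • V 1, -V 2 + V 3 + 1] p.1 q.1) p.2 q.2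

/-- The change of basis. -/
def Pmat (n : ℕ) : Matrix (Fin 2 × Fin n) (Fin (n - 1) ⊕ Fin (n + 1)) k :=
  fun p q => Sum.elim
    (fun r => (![bd n (n - 1) 1 (fun _ => (1 : k)),
      bd n (n - 1) 0 (fun j => (j : k) - (n : k) + 1)] p.1) p.2 r)
    (fun r => (![bd n (n + 1) 0 (fun _ => (1 : k)),
      bd n (n + 1) (-1) (fun j => (j : k))] p.1) p.2 r) q

/-- The inverse change of basis. -/
def Qmat (n : ℕ) : Matrix (Fin (n - 1) ⊕ Fin (n + 1)) (Fin 2 × Fin n) k :=
  fun q p => Sum.elim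
    (fun r => (![bd (n - 1) n (-1) (fun j => (j : k) / (n : k)),
      bd (n - 1) n 0 (fun _ => -1 / (n : k))] p.1) r p.2)
    (fun r => (![bd (n + 1) n 0 (fun j => 1 - (j : k) / (n : k)),
      bd (n + 1) n 1 (fun _ => 1 / (n : k))] p.1) r p.2) q

section decomposition

variable [CharZero k] {n : ℕ}

omit [CharZero k] in
theorem delta_eq_bd (i j : Fin n) (a : k) :
    (if i = j then a else 0) = bd n n 0 (fun _ => a) i j := by
  simp [bd, Fin.ext_iff]

omit [CharZero k] in
theorem tens_apply (V : Fin 5 → Matrix (Fin n) (Fin n) k) (x : Fin 5) (a b : Fin 2) (i j : Fin n) :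
    tens V x (a, i) (b, j) =
      (if a = b then V x i j else 0) + bd n n 0 (fun _ => rho2 x a b) i j := by
  simp [tens, delta_eq_bd]

theorem Pmat_mul_Qmat (hn : 1 ≤ n) : Pmat (k := k) n * Qmat (k := k) n = 1 := by
  have hk : (n : k) ≠ 0 := by exact_mod_cast (show n ≠ 0 by omega)
  ext ⟨a, i⟩ ⟨b, l⟩
  have hi := i.isLt
  have hl := l.isLt
  have e0 : (l : ℕ) = 0 → ((l : ℕ) : k) = 0 := fun h => by simp [h]
  have e1 : (l : ℕ) + 1 = n → (n : k) = ((l : ℕ) : k) + 1 := fun h => by rw [← Nat.cast_one, ← Nat.cast_add, h]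
  fin_cases a <;> fin_cases b <;>
    simp only [Matrix.mul_apply, Fintype.sum_sum_type, Pmat, Qmat, Sum.elim_inl, Sum.elim_inr,
      Fin.zero_eta, Fin.mk_one, Fin.isValue, Matrix.cons_val_zero, Matrix.cons_val_one, bd_sum,
      Matrix.one_apply, Prod.mk.injEq, true_and, false_and, zero_ne_one, one_ne_zero,
      if_false, Fin.ext_iff] <;>
    split_ifs <;> (try omega) <;> (try push_cast) <;> (try field_simp) <;>
    grind

theorem Qmat_mul_Pmat (hn : 1 ≤ n) : Qmat (k := k) n * Pmat (k := k) n = 1 := by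
  have hk : (n : k) ≠ 0 := by exact_mod_cast (show n ≠ 0 by omega)
  ext p q
  rcases p with i | i <;> rcases q with l | l <;>
    (have hi := i.isLt
     have hl := l.isLt
     have e0 : (l : ℕ) = 0 → ((l : ℕ) : k) = 0 := fun h => by simp [h]
     have e1 : (l : ℕ) = n → (n : k) = ((l : ℕ) : k) := fun h => by simpa using congrArg (Nat.cast : ℕ → k) h.symm) <;>
    simp only [Matrix.mul_apply, Fintype.sum_prod_type, Fin.sum_univ_two, Pmat, Qmat,
      Sum.elim_inl, Sum.elim_inr, Fin.isValue, Matrix.cons_val_zero, Matrix.cons_val_one, bd_sum,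
      Matrix.one_apply, Sum.inl.injEq, Sum.inr.injEq, reduceCtorEq, Fin.ext_iff] <;>
    split_ifs <;> (try omega) <;> (try push_cast) <;> (try field_simp) <;> grind

omit [CharZero k] in
theorem rho2_apply (a b : Fin 2) :
    (rho2 (k := k) 0 a b = if a = 1 ∧ b = 0 then 1 else 0) ∧
    (rho2 (k := k) 1 a b = if a = 0 ∧ b = 1 then 1 else 0) ∧
    (rho2 (k := k) 2 a b = if a = b then (if a = 0 then 1 else -1) else 0) ∧
    (rho2 (k := k) 3 a b = if a = b then -1 else 0) ∧
    (rho2 (k := k) 4 a b = 0) := by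
  fin_cases a <;> fin_cases b <;> simp [rho2]

omit [CharZero k] in
theorem tens_mul_Pmat (hn : 1 ≤ n) (x : Fin 5) :
    tens (L n (n : k)) x * Pmat n =
      Pmat n * Matrix.fromBlocks (L (n - 1) ((n - 1 : ℕ) : k) x) 0 0
        (L (n + 1) ((n - 1 : ℕ) : k) x) := by
  have hc : ((n - 1 : ℕ) : k) = (n : k) - 1 := by simp [Nat.cast_sub hn]
  ext ⟨a, i⟩ q
  rcases q with l | l <;>
    (have hi := i.isLt
     have hl := l.isLt
     have e0 : (l : ℕ) = 0 → ((l : ℕ) : k) = 0 := fun h => by simp [h]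
     have e1 : (l : ℕ) + 1 = n → (n : k) = ((l : ℕ) : k) + 1 := fun h => by
       simpa using congrArg (Nat.cast : ℕ → k) h.symm
     have e2 : (l : ℕ) = n → (n : k) = ((l : ℕ) : k) := fun h => by simpa using congrArg (Nat.cast : ℕ → k) h.symm
     have e3 : (l : ℕ) + 2 = n → (n : k) = ((l : ℕ) : k) + 2 := fun h => by
       simpa using congrArg (Nat.cast : ℕ → k) h.symm) <;>
    fin_cases a <;> fin_cases x <;>
    simp only [Matrix.mul_apply, Fintype.sum_sum_type, Fintype.sum_prod_type, Fin.sum_univ_two,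
      tens_apply, rho2_apply, Pmat, L, Sum.elim_inl, Sum.elim_inr, Matrix.fromBlocks_apply₁₁,
      Matrix.fromBlocks_apply₁₂, Matrix.fromBlocks_apply₂₁, Matrix.fromBlocks_apply₂₂,
      Matrix.zero_apply, Fin.zero_eta, Fin.mk_one, Fin.isValue, Fin.reduceFinMk,
      Matrix.cons_val_zero, Matrix.cons_val_one, Matrix.cons_val, mul_zero, zero_mul,
      Finset.sum_const_zero, add_zero, zero_add, if_true, if_false, zero_ne_one, one_ne_zero,
      and_self, and_false, false_and, add_mul, Finset.sum_add_distrib, bd_sum] <;>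
    (try simp) <;> (try split_ifs) <;> (try omega) <;> (try simp only [hc]) <;> (try push_cast [hn]) <;> grind

omit [CharZero k] in
theorem thetaMat_mul_Pmat (hn : 1 ≤ n) :
    thetaMat (L n (n : k)) * Pmat n =
      Pmat n * Matrix.fromBlocks 0 0 0 ((2 * (n : k)) • 1) := by
  rw [← bd_zero_const]
  ext ⟨a, i⟩ q
  rcases q with l | l <;>
    (have hi := i.isLt
     have hl := l.isLt
     have e0 : (l : ℕ) = 0 → ((l : ℕ) : k) = 0 := fun h => by simp [h]
     have e1 : (l : ℕ) + 1 = n → (n : k) = ((l : ℕ) : k) + 1 := fun h => by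
       simpa using congrArg (Nat.cast : ℕ → k) h.symm
     have e2 : (l : ℕ) = n → (n : k) = ((l : ℕ) : k) := fun h => by simpa using congrArg (Nat.cast : ℕ → k) h.symm) <;>
    fin_cases a <;>
    simp only [Matrix.mul_apply, Fintype.sum_sum_type, Fintype.sum_prod_type, Fin.sum_univ_two,
      thetaMat, Pmat, L, Sum.elim_inl, Sum.elim_inr, Matrix.fromBlocks_apply₁₁,
      Matrix.fromBlocks_apply₁₂, Matrix.fromBlocks_apply₂₁, Matrix.fromBlocks_apply₂₂,
      Matrix.zero_apply, Fin.zero_eta, Fin.mk_one, Fin.isValue, Matrix.of_apply,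
      Matrix.cons_val', Matrix.cons_val_fin_one, Matrix.cons_val_zero, Matrix.cons_val_one,
      Matrix.cons_val, Matrix.add_apply, Matrix.neg_apply, Matrix.smul_apply, smul_eq_mul,
      Matrix.one_apply, delta_eq_bd, mul_zero, zero_mul, Finset.sum_const_zero, add_zero,
      zero_add, neg_mul, add_mul, mul_assoc, ← Finset.mul_sum, Finset.sum_neg_distrib,
      Finset.sum_add_distrib, mul_ite, mul_one, Finset.sum_ite_eq', Finset.mem_univ, if_true,
      bd_sum] <;>
    (try simp [bd]) <;> (try split_ifs) <;>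
    (try omega) <;> (try push_cast [hn]) <;> grind

/-- The decomposition of `V ⊗ ρ₂` and the eigenvalues of `thetaMat`. -/
theorem exists_decomposition (hn : 1 ≤ n) :
    ∃ (P : Matrix (Fin 2 × Fin n) (Fin (n - 1) ⊕ Fin (n + 1)) k)
      (Q : Matrix (Fin (n - 1) ⊕ Fin (n + 1)) (Fin 2 × Fin n) k),
      P * Q = 1 ∧ Q * P = 1 ∧
      (∀ x, tens (L n (n : k)) x * P = P * Matrix.fromBlocks (L (n - 1) ((n - 1 : ℕ) : k) x) 0 0
        (L (n + 1) ((n - 1 : ℕ) : k) x)) ∧
      thetaMat (L n (n : k)) * P = P * Matrix.fromBlocks 0 0 0 ((2 * (n : k)) • 1) :=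
  ⟨Pmat n, Qmat n, Pmat_mul_Qmat hn, Qmat_mul_Pmat hn, tens_mul_Pmat hn, thetaMat_mul_Pmat hn⟩

end decomposition

end Vale.Agent.P176.Reps
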