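import Vale.Agent.P176.Algebra
import Vale.Agent.P176.Reps
import Mathlib.RingTheory.Finiteness.Basic

/-!
# The modules of the construction
-/

namespace Vale.Agent.P176

open Matrix

variable {k : Type} [Field k]

/-! ### Blocks of the two representations -/

theorem phiX_apply (a : Alg k) (i j : Fin 5) :
    phiX k a i j = phi2 k a (Sum.inl i) (Sum.inl j) := rfl

theorem phiY_apply (a : Alg k) (i j : Fin 5) :
    phiY k a i j = phi1 k a (Sum.inr i) (Sum.inr j) := rfl

theorem phiM_apply (a : Alg k) (i j : Idx ⊕ Idx) :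
    phiM k a i j = phi2 k a (Sum.inr i) (Sum.inr j) := rfl

theorem phi1_ll (a : Alg k) (i j : Fin 5) :
    phi1 k a (Sum.inl i) (Sum.inl j) = phiX k a i j := by
  obtain ⟨x, s, y, u, g, -, ha⟩ := exists_eq_blk a
  simp [phiX_apply, phi1, phi2, ha, blk]

theorem phi1_rl (a : Alg k) (i j : Fin 5) : phi1 k a (Sum.inr i) (Sum.inl j) = 0 := by
  obtain ⟨x, s, y, u, g, -, ha⟩ := exists_eq_blk a
  simp [phi1, ha, blk]

theorem phi2_lr (a : Alg k) (i : Fin 5) (j : Idx ⊕ Idx) :
    phi2 k a (Sum.inl i) (Sum.inr j) = 0 := by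
  obtain ⟨x, s, y, u, g, -, ha⟩ := exists_eq_blk a
  simp [phi2, ha, blk]

theorem phiX_gr (a : Alg k) : Gr deg5 deg5 (phiX k a) := fun i j =>
  phi2_gr a (Sum.inl i) (Sum.inl j)

theorem phiM_ll (a : Alg k) (i j : Fin 5) (p q : Fin 2) :
    phiM k a (Sum.inl (i, p)) (Sum.inl (j, q)) = comul k (phiY k a i j) p q := by
  obtain ⟨x, s, y, u, g, -, ha⟩ := exists_eq_blk a
  simp [phiM_apply, phiY_apply, phi1, phi2, ha, blk, delta_apply]

theorem phiM_lr (a : Alg k) (i j : Idx) : phiM k a (Sum.inl i) (Sum.inr j) = 0 := by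
  obtain ⟨x, s, y, u, g, -, ha⟩ := exists_eq_blk a
  simp [phiM_apply, phi2, ha, blk]

theorem phiM_rl (a : Alg k) (i j : Fin 5) (p q : Fin 2) :
    phiM k a (Sum.inr (i, p)) (Sum.inl (j, q)) =
      (theta k * comul k (phi1 k a (Sum.inl i) (Sum.inr j))) p q := by
  obtain ⟨x, s, y, u, g, -, ha⟩ := exists_eq_blk a
  simp [phiM_apply, phi1, phi2, ha, blk, bigTheta_delta_apply]

theorem phiM_rr (a : Alg k) (i j : Fin 5) (p q : Fin 2) :
    phiM k a (Sum.inr (i, p)) (Sum.inr (j, q)) = comul k (phiX k a i j) p q := by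
  obtain ⟨x, s, y, u, g, -, ha⟩ := exists_eq_blk a
  simp [phiM_apply, phiX_apply, phi2, ha, blk, delta_apply]

/-! ### Modules from representations -/

section Rep

variable {m : Type} [Fintype m] [DecidableEq m] {n : ℕ}

/-- The module obtained by evaluating a representation at a module of `gl₂`. -/
@[ext]
structure Rep (φ : Alg k →ₐ[k] Matrix m m (Env k)) (V : LieMod k n) : Type where
  /-- The underlying vector. -/
  val : m → Fin n → k

variable (φ : Alg k →ₐ[k] Matrix m m (Env k)) (V : LieMod k n)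

/-- A module element and its vector. -/
def repEquiv : Rep φ V ≃ (m → Fin n → k) := ⟨Rep.val, Rep.mk, fun _ => rfl, fun _ => rfl⟩

noncomputable instance : AddCommGroup (Rep φ V) := (repEquiv φ V).addCommGroup

@[simp]
theorem rep_val_add (v w : Rep φ V) : (v + w).val = v.val + w.val := rfl

@[simp]
theorem rep_val_zero : (0 : Rep φ V).val = 0 := rfl

noncomputable instance : SMul k (Rep φ V) := ⟨fun c v => ⟨c • v.val⟩⟩

@[simp]
theorem rep_val_smul_k (c : k) (v : Rep φ V) : (c • v).val = c • v.val := rfl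

/-- The vector as an additive map. -/
noncomputable def repVal : Rep φ V →+ (m → Fin n → k) where
  toFun := Rep.val
  map_zero' := rfl
  map_add' _ _ := rfl

noncomputable instance : Module k (Rep φ V) :=
  Function.Injective.module k (repVal φ V) (repEquiv φ V).injective fun _ _ => rfl

instance : Module.Finite k (Rep φ V) :=
  Module.Finite.equiv (({ repEquiv φ V with map_add' := fun _ _ => rfl, map_smul' := fun _ _ => rfl } :
    Rep φ V ≃ₗ[k] (m → Fin n → k))).symm

noncomputable instance : SMul (Alg k) (Rep φ V) :=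
  ⟨fun a v => ⟨fun i => ∑ j, V.ev (φ a i j) *ᵥ v.val j⟩⟩

@[simp]
theorem rep_smul_apply (a : Alg k) (v : Rep φ V) (i : m) :
    (a • v).val i = ∑ j, V.ev (φ a i j) *ᵥ v.val j := rfl

theorem rep_ext {v w : Rep φ V} (h : ∀ i, v.val i = w.val i) : v = w := Rep.ext (funext h)

noncomputable instance repModule : Module (Alg k) (Rep φ V) where
  one_smul v := rep_ext φ V fun i => by
    rw [rep_smul_apply, Finset.sum_eq_single i (fun j _ hj => by
      simp [Matrix.one_apply_ne (Ne.symm hj)]) (by simp)]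
    simp
  mul_smul a b v := rep_ext φ V fun i => by
    simp only [rep_smul_apply, map_mul, Matrix.mul_apply, map_sum, Matrix.sum_mulVec,
      Matrix.mulVec_sum, ← Matrix.mulVec_mulVec]
    exact Finset.sum_comm
  smul_zero a := rep_ext φ V fun i => by simp
  smul_add a v w := rep_ext φ V fun i => by
    simp [Matrix.mulVec_add, Finset.sum_add_distrib]
  add_smul a b v := rep_ext φ V fun i => by
    simp [Matrix.add_mulVec, Finset.sum_add_distrib]
  zero_smul v := rep_ext φ V fun i => by simp

instance : IsScalarTower k (Alg k) (Rep φ V) := ⟨fun c a v => rep_ext φ V fun i => by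
  simp [Matrix.smul_mulVec, Finset.smul_sum]⟩

instance : Module.Finite (Alg k) (Rep φ V) := Module.Finite.of_restrictScalars_finite k _ _

end Rep

variable {n : ℕ} (V : LieMod k n)

/-- The lower part into the big module. -/
noncomputable def inclM : Rep (phiM k) V →ₗ[Alg k] Rep (phi2 k) V where
  toFun v := ⟨Sum.elim 0 v.val⟩
  map_add' v w := rep_ext _ V fun i => by rcases i with i | i <;> simp
  map_smul' a v := rep_ext _ V fun i => by
    rcases i with i | i <;> simp [Fintype.sum_sum_type, phi2_lr, phiM_apply]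

/-- The big module onto its top part. -/
noncomputable def projX : Rep (phi2 k) V →ₗ[Alg k] Rep (phiX k) V where
  toFun v := ⟨fun i => v.val (Sum.inl i)⟩
  map_add' v w := rep_ext _ V fun i => by simp
  map_smul' a v := rep_ext _ V fun i => by
    simp [Fintype.sum_sum_type, phi2_lr, phiX_apply]

theorem inclM_injective : Function.Injective (inclM V) := fun _ _ h =>
  rep_ext _ V fun i => congrFun (congrArg Rep.val h) (Sum.inr i)

theorem projX_surjective : Function.Surjective (projX V) := fun v =>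
  ⟨⟨Sum.elim v.val 0⟩, rfl⟩

theorem exact_inclM_projX : Function.Exact (inclM V) (projX V) := fun v => by
  constructor
  · intro h
    refine ⟨⟨fun i => v.val (Sum.inr i)⟩, rep_ext _ V fun i => ?_⟩
    rcases i with i | i
    · exact (congrFun (congrArg Rep.val h) i).symm
    · rfl
  · rintro ⟨w, rfl⟩
    rfl

/-- The first component into the two-step module. -/
noncomputable def inclX : Rep (phiX k) V →ₗ[Alg k] Rep (phi1 k) V where
  toFun v := ⟨Sum.elim v.val 0⟩
  map_add' v w := rep_ext _ V fun i => by rcases i with i | i <;> simp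
  map_smul' a v := rep_ext _ V fun i => by
    rcases i with i | i <;> simp [Fintype.sum_sum_type, phi1_ll, phi1_rl]

/-- The two-step module onto its second component. -/
noncomputable def projY : Rep (phi1 k) V →ₗ[Alg k] Rep (phiY k) V where
  toFun v := ⟨fun i => v.val (Sum.inr i)⟩
  map_add' v w := rep_ext _ V fun i => by simp
  map_smul' a v := rep_ext _ V fun i => by
    simp [Fintype.sum_sum_type, phi1_rl, phiY_apply]

theorem inclX_injective : Function.Injective (inclX V) := fun _ _ h =>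
  rep_ext _ V fun i => congrFun (congrArg Rep.val h) (Sum.inl i)

theorem projY_surjective : Function.Surjective (projY V) := fun v =>
  ⟨⟨Sum.elim 0 v.val⟩, rfl⟩

theorem exact_inclX_projY : Function.Exact (inclX V) (projY V) := fun v => by
  constructor
  · intro h
    refine ⟨⟨fun i => v.val (Sum.inl i)⟩, rep_ext _ V fun i => ?_⟩
    rcases i with i | i
    · rfl
    · exact (congrFun (congrArg Rep.val h) i).symm
  · rintro ⟨w, rfl⟩
    rfl

/-! ### The one-dimensional module -/

variable (V₁ : LieMod k 1)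

/-- The character at the lowest level of the first component. -/
noncomputable def chi : Alg k →ₐ[k] k where
  toFun a := V₁.ev (phiX k a 0 0) 0 0
  map_one' := by simp
  map_zero' := by simp
  map_add' a b := by simp
  map_mul' a b := by
    have h : ∀ j : Fin 5, j ≠ 0 → phiX k a 0 j * phiX k b j 0 = 0 := fun j hj => by
      rw [eq_zero_of_mem_piece_neg ?_ (phiX_gr a 0 j), zero_mul]
      have : (j : ℕ) ≠ 0 := fun h => hj (Fin.ext h)
      simp only [deg5, Fin.val_zero]
      omega
    rw [map_mul, Matrix.mul_apply, Finset.sum_eq_single 0 (fun j _ hj => h j hj) (by simp), map_mul,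
      Matrix.mul_apply, Fin.sum_univ_one]
  commutes' c := by simp [Matrix.algebraMap_matrix_apply]

/-- The one-dimensional module. -/
@[ext]
structure Top (V₁ : LieMod k 1) : Type where
  /-- The underlying scalar. -/
  val : k

/-- An element and its scalar. -/
def topEquiv : Top V₁ ≃ k := ⟨Top.val, Top.mk, fun _ => rfl, fun _ => rfl⟩

noncomputable instance : AddCommGroup (Top V₁) := (topEquiv V₁).addCommGroup

noncomputable instance : SMul (Alg k) (Top V₁) := ⟨fun a c => ⟨chi V₁ a * c.val⟩⟩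

@[simp]
theorem top_val_add (v w : Top V₁) : (v + w).val = v.val + w.val := rfl

@[simp]
theorem top_val_zero : (0 : Top V₁).val = 0 := rfl

@[simp]
theorem top_smul (a : Alg k) (c : Top V₁) : (a • c).val = chi V₁ a * c.val := rfl

noncomputable instance topModule : Module (Alg k) (Top V₁) where
  one_smul v := Top.ext (by simp)
  mul_smul a b v := Top.ext (by simp [mul_assoc])
  smul_zero a := Top.ext (by simp)
  smul_add a v w := Top.ext (by simp [mul_add])
  add_smul a b v := Top.ext (by simp [add_mul])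
  zero_smul v := Top.ext (by simp)

/-- The nonzero map to the one-dimensional module. -/
noncomputable def toTop : Rep (phiX k) V₁ →ₗ[Alg k] Top V₁ where
  toFun v := ⟨v.val 0 0⟩
  map_add' v w := rfl
  map_smul' a v := Top.ext (by
    rw [RingHom.id_apply, top_smul]
    show (a • v).val 0 0 = _
    rw [rep_smul_apply, Finset.sum_eq_single 0]
    · simp [chi, Matrix.mulVec, dotProduct]
    · intro j _ hj
      rw [eq_zero_of_mem_piece_neg ?_ (phiX_gr a 0 j), map_zero, Matrix.zero_mulVec]
      have : (j : ℕ) ≠ 0 := fun h => hj (Fin.ext h)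
      simp only [deg5, Fin.val_zero]
      omega
    · simp)

theorem toTop_ne_zero : toTop V₁ ≠ 0 := fun h => by
  have := congrArg Top.val (LinearMap.congr_fun h ⟨fun _ _ => (1 : k)⟩)
  exact one_ne_zero (α := k) this

/-! ### Decomposing the lower part -/

/-- Evaluation of two-by-two matrices. -/
noncomputable def evC :
    Matrix (Fin 2) (Fin 2) (Env k) →ₐ[k] Matrix (Fin 2 × Fin n) (Fin 2 × Fin n) k :=
  (Matrix.compAlgEquiv (Fin 2) (Fin n) k k).toAlgHom.comp V.ev.mapMatrix

theorem evC_apply (M : Matrix (Fin 2) (Fin 2) (Env k)) (p q : Fin 2) (l l' : Fin n) :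
    evC V M (p, l) (q, l') = V.ev (M p q) l l' := rfl

theorem com_gen_apply (x : Fin 5) (p q : Fin 2) : com (gen k) x p q =
    (if p = q then gen k x else 0) + (Reps.rho2 x p q : k) • gen k 4 := by
  obtain ⟨h0, h1, h2, h3, h4⟩ := Reps.rho2_apply (k := k) p q
  rcases (show x = 0 ∨ x = 1 ∨ x = 2 ∨ x = 3 ∨ x = 4 by omega) with rfl | rfl | rfl | rfl | rfl
  · rw [show (Reps.rho2 0 p q : k) = _ from h0]
    fin_cases p <;> fin_cases q <;> simp [com]
  · rw [show (Reps.rho2 1 p q : k) = _ from h1]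
    fin_cases p <;> fin_cases q <;> simp [com]
  · rw [show (Reps.rho2 2 p q : k) = _ from h2]
    fin_cases p <;> fin_cases q <;> simp [com, sub_eq_add_neg] <;>
      (rw [Algebra.smul_def, map_neg, map_one]; exact (neg_one_mul (gen k 4)).symm)
  · rw [show (Reps.rho2 3 p q : k) = _ from h3]
    fin_cases p <;> fin_cases q <;> simp [com, sub_eq_add_neg] <;>
      (rw [Algebra.smul_def, map_neg, map_one]; exact (neg_one_mul (gen k 4)).symm)
  · rw [show (Reps.rho2 4 p q : k) = _ from h4]
    fin_cases p <;> fin_cases q <;> simp [com]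

theorem evC_gen (x : Fin 5) : evC V (comul k (gen k x)) = Reps.tens V.mat x := by
  ext ⟨p, l⟩ ⟨q, l'⟩
  rw [evC_apply, comul_gen, com_gen_apply]
  by_cases h1 : p = q <;> by_cases h2 : l = l' <;>
    simp [Reps.tens, V.t_one, Matrix.one_apply, h1, h2]

theorem evC_theta : evC V (theta k) = Reps.thetaMat V.mat := by
  ext ⟨p, l⟩ ⟨q, l'⟩
  rw [evC_apply]
  fin_cases p <;> fin_cases q <;> simp [theta, thet, Reps.thetaMat, V.t_one, two_smul]

variable {V} {a b : ℕ} {Vm : LieMod k a} {Vp : LieMod k b}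
  {P : Matrix (Fin 2 × Fin n) (Fin a ⊕ Fin b) k} {Q : Matrix (Fin a ⊕ Fin b) (Fin 2 × Fin n) k}

theorem evC_comul_conj (hPQ : P * Q = 1) (hQP : Q * P = 1)
    (hx : ∀ x, Reps.tens V.mat x * P = P * fromBlocks (Vm.mat x) 0 0 (Vp.mat x)) (u : Env k) :
    Q * evC V (comul k u) = fromBlocks (Vm.ev u) 0 0 (Vp.ev u) * Q := by
  have h : evC V (comul k u) * P = P * fromBlocks (Vm.ev u) 0 0 (Vp.ev u) := by
    induction u using env_induction with
    | hc c =>
      rw [AlgHom.commutes, AlgHom.commutes, AlgHom.commutes, AlgHom.commutes]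
      have : fromBlocks (algebraMap k (Matrix (Fin a) (Fin a) k) c) 0 0
          (algebraMap k (Matrix (Fin b) (Fin b) k) c) = algebraMap k _ c := by
        ext (i | i) (j | j) <;> simp [Matrix.algebraMap_matrix_apply]
      rw [this, Algebra.algebraMap_eq_smul_one, Algebra.algebraMap_eq_smul_one, Matrix.smul_mul,
        Matrix.mul_smul, Matrix.one_mul, Matrix.mul_one]
    | hg x => rw [evC_gen, LieMod.ev_gen, LieMod.ev_gen, hx]
    | ha u w p q =>
      rw [map_add, map_add, Matrix.add_mul, p, q, ← Matrix.mul_add, fromBlocks_add, map_add,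
        map_add]
      simp
    | hm u w p q =>
      rw [map_mul, map_mul, Matrix.mul_assoc, q, ← Matrix.mul_assoc, p, Matrix.mul_assoc,
        fromBlocks_multiply, map_mul, map_mul]
      simp
  calc Q * evC V (comul k u) = Q * (evC V (comul k u) * P) * Q := by
        rw [Matrix.mul_assoc, Matrix.mul_assoc, hPQ, Matrix.mul_one]
    _ = _ := by rw [h, ← Matrix.mul_assoc Q, hQP, Matrix.one_mul]

theorem evC_theta_conj (c : k) (hPQ : P * Q = 1) (hQP : Q * P = 1)
    (ht : Reps.thetaMat V.mat * P = P * fromBlocks 0 0 0 (c • 1)) :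
    Q * evC V (theta k) = fromBlocks 0 0 0 (c • 1) * Q := by
  rw [evC_theta]
  calc Q * Reps.thetaMat V.mat = Q * (Reps.thetaMat V.mat * P) * Q := by
        rw [Matrix.mul_assoc, Matrix.mul_assoc, hPQ, Matrix.mul_one]
    _ = _ := by rw [ht, ← Matrix.mul_assoc Q, hQP, Matrix.one_mul]

variable (V) in
/-- Collecting the two copies over a level. -/
def comb (w : Idx → Fin n → k) (i : Fin 5) : Fin 2 × Fin n → k := fun p => w (i, p.1) p.2

theorem comb_smul_low (e : Alg k) (v : Rep (phiM k) V) (i : Fin 5) :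
    comb (fun c => (e • v).val (Sum.inl c)) i =
      ∑ j, evC V (comul k (phiY k e i j)) *ᵥ comb (fun c => v.val (Sum.inl c)) j := by
  funext ⟨p, l⟩
  simp [comb, rep_smul_apply, Fintype.sum_sum_type, Fintype.sum_prod_type, phiM_lr, phiM_ll,
    evC_apply, Matrix.mulVec, dotProduct, Finset.sum_apply]

theorem comb_smul_high (e : Alg k) (v : Rep (phiM k) V) (i : Fin 5) :
    comb (fun c => (e • v).val (Sum.inr c)) i =
      (∑ j, evC V (theta k * comul k (phi1 k e (Sum.inl i) (Sum.inr j))) *ᵥ
          comb (fun c => v.val (Sum.inl c)) j) +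
      ∑ j, evC V (comul k (phiX k e i j)) *ᵥ comb (fun c => v.val (Sum.inr c)) j := by
  funext ⟨p, l⟩
  simp [comb, rep_smul_apply, Fintype.sum_sum_type, Fintype.sum_prod_type, phiM_rl, phiM_rr,
    evC_apply, Matrix.mulVec, dotProduct, Finset.sum_apply, -map_mul]

theorem diag_inl (A : Matrix (Fin a) (Fin a) k) (D : Matrix (Fin b) (Fin b) k)
    (w : Fin a ⊕ Fin b → k) (r : Fin a) :
    (fromBlocks A 0 0 D *ᵥ w) (Sum.inl r) = (A *ᵥ fun r => w (Sum.inl r)) r := by
  simp [Matrix.mulVec, dotProduct, Fintype.sum_sum_type]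

theorem diag_inr (A : Matrix (Fin a) (Fin a) k) (D : Matrix (Fin b) (Fin b) k)
    (w : Fin a ⊕ Fin b → k) (r : Fin b) :
    (fromBlocks A 0 0 D *ᵥ w) (Sum.inr r) = (D *ᵥ fun r => w (Sum.inr r)) r := by
  simp [Matrix.mulVec, dotProduct, Fintype.sum_sum_type]

theorem theta_inl (c : k) (A : Matrix (Fin a) (Fin a) k) (D : Matrix (Fin b) (Fin b) k)
    (w : Fin a ⊕ Fin b → k) (r : Fin a) :
    ((fromBlocks 0 0 0 (c • 1) * fromBlocks A 0 0 D) *ᵥ w) (Sum.inl r) = 0 := by
  simp [fromBlocks_multiply, Matrix.mulVec, dotProduct, Fintype.sum_sum_type]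

theorem theta_inr (c : k) (A : Matrix (Fin a) (Fin a) k) (D : Matrix (Fin b) (Fin b) k)
    (w : Fin a ⊕ Fin b → k) (r : Fin b) :
    ((fromBlocks 0 0 0 (c • 1) * fromBlocks A 0 0 D) *ᵥ w) (Sum.inr r) =
      c * (D *ᵥ fun r => w (Sum.inr r)) r := by
  simp [fromBlocks_multiply, Matrix.mulVec, dotProduct, Fintype.sum_sum_type, Finset.mul_sum,
    mul_assoc]

variable (V Vm Vp P Q) in
/-- The decomposition of the lower part. -/
noncomputable def splitM (c : k) (hc : c ≠ 0) (hPQ : P * Q = 1) (hQP : Q * P = 1)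
    (hx : ∀ x, Reps.tens V.mat x * P = P * fromBlocks (Vm.mat x) 0 0 (Vp.mat x))
    (ht : Reps.thetaMat V.mat * P = P * fromBlocks 0 0 0 (c • 1)) :
    Rep (phiM k) V ≃ₗ[Alg k] Rep (phiY k) Vm × (Rep (phi1 k) Vp × Rep (phiX k) Vm) where
  toFun v := (⟨fun i r => (Q *ᵥ comb (fun j => v.val (Sum.inl j)) i) (Sum.inl r)⟩,
    (⟨Sum.elim (fun i r => c⁻¹ * (Q *ᵥ comb (fun j => v.val (Sum.inr j)) i) (Sum.inr r))
      (fun i r => (Q *ᵥ comb (fun j => v.val (Sum.inl j)) i) (Sum.inr r))⟩,
    ⟨fun i r => (Q *ᵥ comb (fun j => v.val (Sum.inr j)) i) (Sum.inl r)⟩))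
  invFun w := ⟨Sum.elim
    (fun j l => (P *ᵥ Sum.elim (w.1.val j.1) (w.2.1.val (Sum.inr j.1))) (j.2, l))
    (fun j l => (P *ᵥ Sum.elim (w.2.2.val j.1) (c • w.2.1.val (Sum.inl j.1))) (j.2, l))⟩
  left_inv v := by
    have h : ∀ x : Fin 2 × Fin n → k, P *ᵥ Q *ᵥ x = x := fun x => by
      rw [Matrix.mulVec_mulVec, hPQ, Matrix.one_mulVec]
    refine rep_ext _ V fun i => funext fun l => ?_
    rcases i with ⟨i, p⟩ | ⟨i, p⟩
    · refine Eq.trans ?_ (congrFun (h (comb (fun j => v.val (Sum.inl j)) i)) (p, l))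
      simp only [Sum.elim_inl, Sum.elim_inr]
      refine congrFun (congrArg (P *ᵥ ·) (funext fun r => ?_)) _
      rcases r with r | r <;> rfl
    · refine Eq.trans ?_ (congrFun (h (comb (fun j => v.val (Sum.inr j)) i)) (p, l))
      simp only [Sum.elim_inl, Sum.elim_inr]
      refine congrFun (congrArg (P *ᵥ ·) (funext fun r => ?_)) _
      rcases r with r | r
      · rfl
      · simp [hc]
  right_inv w := by
    have h : ∀ x : Fin a ⊕ Fin b → k, Q *ᵥ P *ᵥ x = x := fun x => by
      rw [Matrix.mulVec_mulVec, hQP, Matrix.one_mulVec]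
    have h1 : ∀ i, comb (fun (j : Idx) l =>
        (P *ᵥ Sum.elim (w.1.val j.1) (w.2.1.val (Sum.inr j.1))) (j.2, l)) i =
          P *ᵥ Sum.elim (w.1.val i) (w.2.1.val (Sum.inr i)) := fun i => rfl
    have h2 : ∀ i, comb (fun (j : Idx) l =>
        (P *ᵥ Sum.elim (w.2.2.val j.1) (c • w.2.1.val (Sum.inl j.1))) (j.2, l)) i =
          P *ᵥ Sum.elim (w.2.2.val i) (c • w.2.1.val (Sum.inl i)) := fun i => rfl
    refine Prod.ext (rep_ext _ Vm fun i => ?_) (Prod.ext (rep_ext _ Vp fun i => ?_)
      (rep_ext _ Vm fun i => ?_))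
    · funext r
      simp [h1, h]
    · rcases i with i | i
      · funext r
        simp [h2, h, hc]
      · funext r
        simp [h1, h]
    · funext r
      simp [h2, h]
  map_add' v w := by
    have h : ∀ (i : Fin 5) (f g : Idx → Fin n → k), Q *ᵥ comb (fun j => f j + g j) i =
        Q *ᵥ comb f i + Q *ᵥ comb g i := fun i f g => by
      rw [← Matrix.mulVec_add]; rfl
    refine Prod.ext (rep_ext _ Vm fun i => ?_) (Prod.ext (rep_ext _ Vp fun i => ?_)
      (rep_ext _ Vm fun i => ?_))
    · funext r; simp [h]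
    · rcases i with i | i <;> funext r <;> simp [h, mul_add]
    · funext r; simp [h]
  map_smul' e v := by
    have hl : ∀ i, Q *ᵥ comb (fun j => (e • v).val (Sum.inl j)) i =
        ∑ j, fromBlocks (Vm.ev (phiY k e i j)) 0 0 (Vp.ev (phiY k e i j)) *ᵥ
          (Q *ᵥ comb (fun l => v.val (Sum.inl l)) j) := fun i => by
      rw [comb_smul_low, Matrix.mulVec_sum]
      exact Finset.sum_congr rfl fun j _ => by
        rw [Matrix.mulVec_mulVec, Matrix.mulVec_mulVec, evC_comul_conj hPQ hQP hx]
    have hr : ∀ i, Q *ᵥ comb (fun j => (e • v).val (Sum.inr j)) i =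
        (∑ j, (fromBlocks 0 0 0 (c • 1) * fromBlocks (Vm.ev (phi1 k e (Sum.inl i) (Sum.inr j))) 0 0
            (Vp.ev (phi1 k e (Sum.inl i) (Sum.inr j)))) *ᵥ
          (Q *ᵥ comb (fun l => v.val (Sum.inl l)) j)) +
        ∑ j, fromBlocks (Vm.ev (phiX k e i j)) 0 0 (Vp.ev (phiX k e i j)) *ᵥ
          (Q *ᵥ comb (fun l => v.val (Sum.inr l)) j) := fun i => by
      rw [comb_smul_high, Matrix.mulVec_add, Matrix.mulVec_sum, Matrix.mulVec_sum]
      refine congrArg₂ (· + ·) (Finset.sum_congr rfl fun j _ => ?_)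
        (Finset.sum_congr rfl fun j _ => ?_)
      · rw [Matrix.mulVec_mulVec, Matrix.mulVec_mulVec, map_mul, ← Matrix.mul_assoc,
          evC_theta_conj c hPQ hQP ht, Matrix.mul_assoc, evC_comul_conj hPQ hQP hx,
          ← Matrix.mul_assoc]
      · rw [Matrix.mulVec_mulVec, Matrix.mulVec_mulVec, evC_comul_conj hPQ hQP hx]
    refine Prod.ext (rep_ext _ Vm fun i => ?_) (Prod.ext (rep_ext _ Vp fun i => ?_)
      (rep_ext _ Vm fun i => ?_))
    · funext r
      refine (congrFun (hl i) (Sum.inl r)).trans ?_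
      simp [Finset.sum_apply, diag_inl, -Matrix.mulVec_mulVec]
    · rcases i with i | i
      · funext r
        refine (congrArg (c⁻¹ * ·) (congrFun (hr i) (Sum.inr r))).trans ?_
        simp only [RingHom.id_apply, Prod.smul_fst, Prod.smul_snd, rep_smul_apply, Pi.add_apply,
          Finset.sum_apply, diag_inr, theta_inr, mul_add, Finset.mul_sum, inv_mul_cancel_left₀ hc,
          Fintype.sum_sum_type, phi1_ll, Sum.elim_inl, Sum.elim_inr]
        rw [add_comm]
        refine congrArg₂ (· + ·) (Finset.sum_congr rfl fun j _ => ?_) rfl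
        simp only [Matrix.mulVec, dotProduct, Finset.mul_sum]
        exact Finset.sum_congr rfl fun l _ => Finset.sum_congr rfl fun x _ => by ring
      · funext r
        refine (congrFun (hl i) (Sum.inr r)).trans ?_
        simp [Finset.sum_apply, diag_inr, Fintype.sum_sum_type, phi1_rl, phiY_apply,
          -Matrix.mulVec_mulVec]
    · funext r
      refine (congrFun (hr i) (Sum.inl r)).trans ?_
      simp [Finset.sum_apply, diag_inl, theta_inl, -Matrix.mulVec_mulVec]

end Vale.Agent.P176
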