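import Vale.Agent.P176.Modules
import Vale.Agent.P176.Homological
import Mathlib.Algebra.Module.Projective
import Mathlib.LinearAlgebra.FreeModule.Basic
import Mathlib.LinearAlgebra.StdBasis

/-!
# Projective resolutions of the evaluated modules
-/

namespace Vale.Agent.P176

open Matrix

variable {k : Type} [Field k]

section Column

variable {m : Type} [Fintype m] [DecidableEq m] (φ : Alg k →ₐ[k] Matrix m m (Env k)) (deg : m → ℕ)
  (hφ : ∀ a, Gr deg deg (φ a))

/-- Column vectors of the given degree. -/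
@[ext]
structure Col (φ : Alg k →ₐ[k] Matrix m m (Env k)) (deg : m → ℕ)
    (hφ : ∀ a, Gr deg deg (φ a)) (l : ℕ) : Type where
  /-- The entries. -/
  val : m → Env k
  /-- The degrees. -/
  mem : ∀ i, val i ∈ piece k ((deg i : ℤ) - l)

variable (l : ℕ)

/-- The column vectors as a subspace. -/
def colSub : AddSubgroup (m → Env k) where
  carrier := {w | ∀ i, w i ∈ piece k ((deg i : ℤ) - l)}
  add_mem' h h' i := Submodule.add_mem _ (h i) (h' i)
  zero_mem' _ := Submodule.zero_mem _
  neg_mem' h i := Submodule.neg_mem _ (h i)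

/-- Column vectors and elements of the subspace. -/
def colEquiv : Col φ deg hφ l ≃ colSub (k := k) deg l :=
  ⟨fun v => ⟨v.val, v.mem⟩, fun v => ⟨v.1, v.2⟩, fun _ => rfl, fun _ => rfl⟩

noncomputable instance : AddCommGroup (Col φ deg hφ l) := (colEquiv φ deg hφ l).addCommGroup

@[simp]
theorem col_val_add (v w : Col φ deg hφ l) : (v + w).val = v.val + w.val := rfl

@[simp]
theorem col_val_zero : (0 : Col φ deg hφ l).val = 0 := rfl

noncomputable instance : SMul (Alg k) (Col φ deg hφ l) :=
  ⟨fun a v => ⟨φ a *ᵥ v.val, fun i => Submodule.sum_mem _ fun j _ => by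
    have := mul_mem_piece (hφ a i j) (v.mem j)
    rwa [sub_add_sub_cancel] at this⟩⟩

@[simp]
theorem col_val_smul (a : Alg k) (v : Col φ deg hφ l) : (a • v).val = φ a *ᵥ v.val := rfl

noncomputable instance colModule : Module (Alg k) (Col φ deg hφ l) where
  one_smul v := Col.ext (by simp)
  mul_smul a b v := Col.ext (by simp [Matrix.mulVec_mulVec])
  smul_zero a := Col.ext (by simp)
  smul_add a v w := Col.ext (by simp [Matrix.mulVec_add])
  add_smul a b v := Col.ext (by simp [Matrix.add_mulVec])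
  zero_smul v := Col.ext (by simp)

variable {φ deg hφ}

theorem colFun_apply {Q : Type} [Fintype Q] (v : Q → Col φ deg hφ l) (a : Alg k) (i : m) (p : Q) :
    ((a • v) p).val i = ∑ j, φ a i j * (v p).val j := rfl

variable {l}

/-- The map given by a matrix of degree one. -/
noncomputable def dMap {Q Q' : Type} [Fintype Q'] (D : Matrix Q' Q (Env k))
    (hD : ∀ p q, D p q ∈ piece k 1) :
    (Q' → Col φ deg hφ (l + 1)) →ₗ[Alg k] (Q → Col φ deg hφ l) where
  toFun v q := ⟨fun i => ((fun p => (v p).val i) ᵥ* D) q, fun i => by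
    refine Submodule.sum_mem _ fun p _ => ?_
    have := mul_mem_piece ((v p).mem i) (hD p q)
    rwa [show ((deg i : ℤ) - ((l + 1 : ℕ) : ℤ)) + 1 = (deg i : ℤ) - l by omega] at this⟩
  map_add' v w := funext fun q => Col.ext (funext fun i => by
    simp [Matrix.vecMul, dotProduct, add_mul, Finset.sum_add_distrib])
  map_smul' a v := funext fun q => Col.ext (funext fun i => by
    simp only [RingHom.id_apply, Pi.smul_apply, col_val_smul, Matrix.mulVec, Matrix.vecMul,
      dotProduct, Finset.sum_mul, Finset.mul_sum, mul_assoc]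
    exact Finset.sum_comm)

theorem dMap_apply {Q Q' : Type} [Fintype Q'] (D : Matrix Q' Q (Env k))
    (hD : ∀ p q, D p q ∈ piece k 1) (v : Q' → Col φ deg hφ (l + 1)) (q : Q) (i : m) :
    (dMap D hD v q).val i = ((fun p => (v p).val i) ᵥ* D) q := rfl

theorem exact_dMap {Q Q' Q'' : Type} [Fintype Q'] [Fintype Q''] (D' : Matrix Q'' Q' (Env k))
    (hD' : ∀ p q, D' p q ∈ piece k 1) (D : Matrix Q' Q (Env k)) (hD : ∀ p q, D p q ∈ piece k 1)
    (h0 : D' * D = 0)
    (hex : ∀ (d : ℤ) (v : Q' → Env k), Deg d v → v ᵥ* D = 0 →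
      ∃ y, Deg (d - 1) y ∧ y ᵥ* D' = v) :
    Function.Exact (dMap (φ := φ) (deg := deg) (hφ := hφ) (l := l + 1) D' hD')
      (dMap (φ := φ) (deg := deg) (hφ := hφ) (l := l) D hD) := fun v => by
  constructor
  · intro hv
    have h : ∀ i, ∃ y, Deg (((deg i : ℤ) - ((l + 1 : ℕ) : ℤ)) - 1) y ∧
        y ᵥ* D' = fun p => (v p).val i := fun i => by
      refine hex _ _ (fun p => (v p).mem i) (funext fun q => ?_)
      exact congrFun (congrArg Col.val (congrFun hv q)) i
    choose y hy hyD using h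
    refine ⟨fun p => ⟨fun i => y i p, fun i => ?_⟩, funext fun q => Col.ext (funext fun i => ?_)⟩
    · have := hy i p
      rwa [show ((deg i : ℤ) - ((l + 1 : ℕ) : ℤ)) - 1 = (deg i : ℤ) - ((l + 1 + 1 : ℕ) : ℤ)
        by omega] at this
    · exact congrFun (hyD i) q
  · rintro ⟨w, rfl⟩
    refine funext fun q => Col.ext (funext fun i => ?_)
    show ((fun p => (w p).val i) ᵥ* D' ᵥ* D) q = 0
    rw [Matrix.vecMul_vecMul, h0, Matrix.vecMul_zero, Pi.zero_apply]

variable {n : ℕ} (V : LieMod k n)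

/-- The augmentation onto the evaluated module. -/
noncomputable def epsMap :
    (Fin 1 × Fin n → Col φ deg hφ 0) →ₗ[Alg k] Rep φ V where
  toFun v := ⟨fun i => aug V fun q => (v q).val i⟩
  map_add' v w := rep_ext _ V fun i => by
    simp only [rep_val_add, Pi.add_apply, col_val_add]
    exact map_add (aug V) _ _
  map_smul' a v := rep_ext _ V fun i => by
    simp only [RingHom.id_apply, rep_smul_apply]
    rw [show (fun q => ((a • v) q).val i) = ∑ j, fun q => φ a i j * (v q).val j from funext fun q => by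
      rw [colFun_apply, Finset.sum_apply], map_sum]
    exact Finset.sum_congr rfl fun j _ => aug_mul V _ _

theorem gen_pow_mem (d : ℕ) : gen k 4 ^ d ∈ piece k (d : ℤ) := by
  rw [piece_nat]
  exact Submodule.pow_mem_pow _ (Submodule.subset_span (Set.mem_range_self 4)) d

theorem epsMap_surjective : Function.Surjective (epsMap (φ := φ) (deg := deg) (hφ := hφ) V) := by
  intro r
  refine ⟨fun q => ⟨fun i => r.val i q.2 • gen k 4 ^ deg i, fun i => ?_⟩, rep_ext _ V fun i => ?_⟩
  · rw [Nat.cast_zero, sub_zero]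
    exact Submodule.smul_mem _ _ (gen_pow_mem _)
  · funext j
    simp [epsMap, aug, V.t_one, Matrix.one_apply]

theorem exact_eps [CharZero k] :
    Function.Exact (dMap (φ := φ) (deg := deg) (hφ := hφ) (l := 0) (D1 V) (D1_mem V))
      (epsMap (φ := φ) (deg := deg) (hφ := hφ) V) := fun v => by
  constructor
  · intro hv
    have h : ∀ i, ∃ y, Deg (((deg i : ℤ) - ((0 : ℕ) : ℤ)) - 1) y ∧
        y ᵥ* D1 V = fun p => (v p).val i := fun i =>
      exact0 V _ _ (fun p => (v p).mem i) (congrFun (congrArg Rep.val hv) i)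
    choose y hy hyD using h
    refine ⟨fun p => ⟨fun i => y i p, fun i => ?_⟩, funext fun q => Col.ext (funext fun i => ?_)⟩
    · have := hy i p
      rwa [show ((deg i : ℤ) - ((0 : ℕ) : ℤ)) - 1 = (deg i : ℤ) - ((0 + 1 : ℕ) : ℤ)
        by omega] at this
    · exact congrFun (hyD i) q
  · rintro ⟨w, rfl⟩
    exact rep_ext _ V fun i => aug_D1 V fun p => (w p).val i

variable (φ deg hφ) in
/-- A column of the representation that splits off the algebra. -/
structure ColData (l : ℕ) where
  /-- The column. -/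
  c : m
  /-- Its degree. -/
  deg_c : deg c = l
  /-- The element with a prescribed column. -/
  elt : Col φ deg hφ l →ₗ[Alg k] Alg k
  /-- It has that column. -/
  col_elt : ∀ (v : Col φ deg hφ l) (i : m), φ (elt v) i c = v.val i

/-- Taking the column. -/
noncomputable def ColData.take {l : ℕ} (C : ColData φ deg hφ l) : Alg k →ₗ[Alg k] Col φ deg hφ l where
  toFun a := ⟨fun i => φ a i C.c, fun i => by
    have := hφ a i C.c
    rwa [C.deg_c] at this⟩
  map_add' a b := Col.ext (funext fun i => by simp)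
  map_smul' a b := Col.ext (funext fun i => by simp [Matrix.mulVec, dotProduct, Matrix.mul_apply])

theorem ColData.take_elt {l : ℕ} (C : ColData φ deg hφ l) (v : Col φ deg hφ l) : C.take (C.elt v) = v :=
  Col.ext (funext fun i => C.col_elt v i)

theorem ColData.projective {l : ℕ} (C : ColData φ deg hφ l) (Q : Type) [Fintype Q] [DecidableEq Q] :
    Module.Projective (Alg k) (Q → Col φ deg hφ l) :=
  Module.Projective.of_split (C.elt.compLeft Q) (C.take.compLeft Q)
    (LinearMap.ext fun v => funext fun q => C.take_elt (v q))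

/-- The distinguished element. -/
noncomputable def ColData.idem {l : ℕ} (C : ColData φ deg hφ l) : Alg k := C.elt (C.take 1)

theorem ColData.hom_zero {l : ℕ} (C : ColData φ deg hφ l) (Q : Type) [Fintype Q] [DecidableEq Q] (V₁ : LieMod k 1)
    (he : chi V₁ C.idem = 0) (f : (Q → Col φ deg hφ l) →ₗ[Alg k] Top V₁) : f = 0 := by
  refine LinearMap.pi_ext fun q w => ?_
  rw [LinearMap.zero_apply]
  set g := f.comp (LinearMap.single (Alg k) (fun _ : Q => Col φ deg hφ l) q) with hg
  have h1 : g (C.take 1) = 0 := by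
    have : C.idem • C.take 1 = C.take 1 := by
      rw [← map_smul, smul_eq_mul, mul_one, ColData.idem, C.take_elt]
    rw [← this, map_smul]
    exact Top.ext (by simp [he])
  have h2 : g w = 0 := by
    rw [← C.take_elt w, ← mul_one (C.elt w), ← smul_eq_mul, map_smul, map_smul, h1, smul_zero]
  exact h2

end Column

section Complex

variable {n : ℕ} (V : LieMod k n) {m : Type} [Fintype m] [DecidableEq m]
  (φ : Alg k →ₐ[k] Matrix m m (Env k)) (deg : m → ℕ) (hφ : ∀ a, Gr deg deg (φ a))

/-- Ranks of the terms. -/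
def dim : ℕ → ℕ
  | 0 => 1
  | 1 => 4
  | 2 => 6
  | 3 => 4
  | 4 => 1
  | _ + 5 => 0

/-- The differentials. -/
noncomputable def dd : ∀ i, (Fin (dim (i + 1)) × Fin n → Col φ deg hφ (i + 1)) →ₗ[Alg k]
    (Fin (dim i) × Fin n → Col φ deg hφ i)
  | 0 => dMap (D1 V) (D1_mem V)
  | 1 => dMap (D2 V) (D2_mem V)
  | 2 => dMap (D3 V) (D3_mem V)
  | 3 => dMap (D4 V) (D4_mem V)
  | _ + 4 => 0

theorem exact_dd [CharZero k] : ∀ i, Function.Exact (dd V φ deg hφ (i + 1)) (dd V φ deg hφ i)
  | 0 => exact_dMap (D2 V) (D2_mem V) (D1 V) (D1_mem V) (D21 V) fun d v hv h => exact1 V d v hv h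
  | 1 => exact_dMap (D3 V) (D3_mem V) (D2 V) (D2_mem V) (D32 V) fun d v hv h => exact2 V d v hv h
  | 2 => exact_dMap (D4 V) (D4_mem V) (D3 V) (D3_mem V) (D43 V) fun d v hv h => exact3 V d v hv h
  | 3 => fun v => by
    constructor
    · intro hv
      refine ⟨0, ?_⟩
      rw [map_zero]
      refine (funext fun p => Col.ext (funext fun i => ?_)).symm
      exact congrFun (exact4 V _ (fun p => (v p).val i) (fun p => (v p).mem i)
        (funext fun q => congrFun (congrArg Col.val (congrFun hv q)) i)) p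
    · rintro ⟨w, rfl⟩
      simp [dd]
  | i + 4 => fun v => by
    have hd : IsEmpty (Fin (dim (i + 4 + 1)) × Fin n) := by
      have : IsEmpty (Fin (dim (i + 4 + 1))) := inferInstanceAs (IsEmpty (Fin 0))
      infer_instance
    constructor
    · exact fun _ => ⟨0, funext fun p => (hd.false p).elim⟩
    · exact fun _ => by simp [dd]

theorem tame_rep [CharZero k] (V₁ : LieMod k 1) (C : ∀ i, i ≤ 4 → ColData φ deg hφ i)
    (hC : ∀ i hi, 1 ≤ i → chi V₁ (C i hi).idem = 0) :
    Tame (ModuleCat.of (Alg k) (Top V₁)) (ModuleCat.of (Alg k) (Rep φ V)) := by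
  refine tame_of_bounded_complex (ModuleCat.of (Alg k) (Top V₁)) (Rep φ V) 4
    (fun i => Fin (dim i) × Fin n → Col φ deg hφ i) (dd V φ deg hφ)
    (epsMap (φ := φ) (deg := deg) (hφ := hφ) V) (epsMap_surjective V) (exact_eps V)
    (exact_dd V φ deg hφ) ?_ (fun i hi => (C i hi).projective _)
    (fun i h1 hi f => (C i hi).hom_zero _ V₁ (hC i hi h1) f)
  intro i hi
  obtain ⟨j, rfl⟩ := Nat.exists_eq_add_of_le hi
  have : IsEmpty (Fin (dim (4 + 1 + j))) := by
    rw [show 4 + 1 + j = j + 5 by omega]; exact inferInstanceAs (IsEmpty (Fin 0))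
  infer_instance

theorem hom_rep_zero (V₁ : LieMod k 1) (C : ColData φ deg hφ 0) (hC : chi V₁ C.idem = 0)
    (f : Rep φ V →ₗ[Alg k] Top V₁) : f = 0 := by
  have h := C.hom_zero _ V₁ hC (f.comp (epsMap (φ := φ) (deg := deg) (hφ := hφ) V))
  refine LinearMap.ext fun r => ?_
  obtain ⟨v, rfl⟩ := epsMap_surjective (φ := φ) (deg := deg) (hφ := hφ) V r
  exact LinearMap.congr_fun h v

end Complex

/-! ### The splitting columns -/

/-- A matrix with a single nonzero column. -/
def colm {R : Type} (l : Fin 5) (w : R → Env k) : Matrix R (Fin 5) (Env k) :=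
  Matrix.of fun i j => if j = l then w i else 0

theorem mul_colm {R S : Type} [Fintype S] (M : Matrix R S (Env k)) (l : Fin 5) (w : S → Env k) :
    M * colm l w = colm l (M *ᵥ w) := by
  ext i j
  by_cases h : j = l <;> simp [colm, Matrix.mul_apply, Matrix.mulVec, dotProduct, h]

theorem colm_add {R : Type} (l : Fin 5) (v w : R → Env k) :
    colm l (v + w) = colm l v + colm l w := by
  ext i j
  by_cases h : j = l <;> simp [colm, h]

theorem colm_gr {R : Type} {dr : R → ℕ} (l : Fin 5) {w : R → Env k}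
    (h : ∀ i, w i ∈ piece k ((dr i : ℤ) - (l : ℕ))) : Gr dr deg5 (colm l w) := fun i j => by
  by_cases hj : j = l
  · subst hj; simpa [colm, deg5] using h i
  · simp [colm, hj]

theorem blk_congr {x x' s s' y y' : Matrix (Fin 5) (Fin 5) (Env k)}
    {u u' g g' : Matrix Idx (Fin 5) (Env k)} (h1 : x = x') (h2 : s = s') (h3 : y = y')
    (h4 : u = u') (h5 : g = g') : blk x s y u g = blk x' s' y' u' g' := by
  subst h1 h2 h3 h4 h5; rfl

theorem phi1_eq {a : Alg k} {x s y : Matrix (Fin 5) (Fin 5) (Env k)}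
    {u g : Matrix Idx (Fin 5) (Env k)} (ha : (a : Amb k) = blk x s y u g) :
    phi1 k a = fromBlocks x s 0 y := congrArg Prod.fst ha

theorem phi2_eq {a : Alg k} {x s y : Matrix (Fin 5) (Fin 5) (Env k)}
    {u g : Matrix Idx (Fin 5) (Env k)} (ha : (a : Amb k) = blk x s y u g) :
    phi2 k a = fromBlocks x 0 (fromRows u g)
      (fromBlocks (delta k y) 0 (bigTheta k * delta k s) (delta k x)) := congrArg Prod.snd ha

/-- An element of the algebra from its coordinates. -/
noncomputable def mkElt (x s y : Matrix (Fin 5) (Fin 5) (Env k))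
    (u g : Matrix Idx (Fin 5) (Env k)) (h : Adm x s y u g) : Alg k :=
  ⟨blk x s y u g, ⟨x, s, y, u, g, h, rfl⟩⟩

theorem coe_mkElt (x s y : Matrix (Fin 5) (Fin 5) (Env k))
    (u g : Matrix Idx (Fin 5) (Env k)) (h : Adm x s y u g) :
    (mkElt x s y u g h : Amb k) = blk x s y u g := rfl

/-- The element with a prescribed column in the second representation. -/
noncomputable def eltI (l : Fin 5) (v : Col (phi2 k) degB (phi2_gr (k := k)) (l : ℕ)) : Alg k :=
  mkElt (colm l fun i => v.val (Sum.inl i)) 0 0 (colm l fun i => v.val (Sum.inr (Sum.inl i)))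
    (colm l fun i => v.val (Sum.inr (Sum.inr i)))
    ⟨colm_gr l fun i => v.mem (Sum.inl i), Gr.zero, Gr.zero,
      colm_gr l fun i => v.mem (Sum.inr (Sum.inl i)),
      colm_gr l fun i => v.mem (Sum.inr (Sum.inr i))⟩

/-- The element with a prescribed column in the first representation. -/
noncomputable def eltJ (l : Fin 5) (v : Col (phi1 k) degA (phi1_gr (k := k)) (l : ℕ)) : Alg k :=
  mkElt 0 (colm l fun i => v.val (Sum.inl i)) (colm l fun i => v.val (Sum.inr i)) 0 0
    ⟨Gr.zero, colm_gr l fun i => v.mem (Sum.inl i), colm_gr l fun i => v.mem (Sum.inr i),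
      Gr.zero, Gr.zero⟩

theorem eltI_add (l : Fin 5) (v w : Col (phi2 k) degB (phi2_gr (k := k)) (l : ℕ)) :
    eltI l (v + w) = eltI l v + eltI l w := by
  refine Subtype.ext ?_
  rw [Subalgebra.coe_add]
  simp only [eltI, mkElt, blk_add, add_zero]
  exact blk_congr (colm_add l _ _) rfl rfl (colm_add l _ _) (colm_add l _ _)

theorem eltJ_add (l : Fin 5) (v w : Col (phi1 k) degA (phi1_gr (k := k)) (l : ℕ)) :
    eltJ l (v + w) = eltJ l v + eltJ l w := by
  refine Subtype.ext ?_
  rw [Subalgebra.coe_add]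
  simp only [eltJ, mkElt, blk_add, add_zero]
  exact blk_congr rfl (colm_add l _ _) (colm_add l _ _) rfl rfl

theorem eltI_smul (l : Fin 5) (a : Alg k) (v : Col (phi2 k) degB (phi2_gr (k := k)) (l : ℕ)) :
    eltI l (a • v) = a * eltI l v := by
  refine Subtype.ext ?_
  obtain ⟨x, s, y, u, g, -, ha⟩ := exists_eq_blk a
  rw [Subalgebra.coe_mul, ha]
  simp only [eltI, mkElt, blk_mul, Matrix.mul_zero, Matrix.zero_mul, add_zero, mul_colm,
    ← colm_add]
  refine blk_congr ?_ rfl rfl ?_ ?_ <;> refine congrArg (colm l) (funext fun i => ?_) <;>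
    simp [phi2_eq ha, fromBlocks_mulVec, Function.comp_def, fromRows_mulVec]

theorem eltJ_smul (l : Fin 5) (a : Alg k) (v : Col (phi1 k) degA (phi1_gr (k := k)) (l : ℕ)) :
    eltJ l (a • v) = a * eltJ l v := by
  refine Subtype.ext ?_
  obtain ⟨x, s, y, u, g, -, ha⟩ := exists_eq_blk a
  rw [Subalgebra.coe_mul, ha]
  simp only [eltJ, mkElt, blk_mul, Matrix.mul_zero, add_zero, zero_add, mul_colm, ← colm_add]
  refine blk_congr rfl ?_ ?_ rfl rfl <;> refine congrArg (colm l) (funext fun i => ?_) <;>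
    simp [phi1_eq ha, fromBlocks_mulVec, Function.comp_def]

variable (k) in
/-- The splitting columns of the second representation. -/
noncomputable def colI (l : Fin 5) :
    ColData (phi2 k) degB (phi2_gr (k := k)) (l : ℕ) where
  c := Sum.inl l
  deg_c := rfl
  elt := { toFun := eltI l, map_add' := eltI_add l, map_smul' := eltI_smul l }
  col_elt v i := by
    show phi2 k (eltI l v) i (Sum.inl l) = v.val i
    rw [phi2_eq (a := eltI l v) rfl]
    rcases i with i | i | i <;> simp [colm]

variable (k) in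
/-- The splitting columns of the first representation. -/
noncomputable def colJ (l : Fin 5) :
    ColData (phi1 k) degA (phi1_gr (k := k)) (l : ℕ) where
  c := Sum.inr l
  deg_c := rfl
  elt := { toFun := eltJ l, map_add' := eltJ_add l, map_smul' := eltJ_smul l }
  col_elt v i := by
    show phi1 k (eltJ l v) i (Sum.inr l) = v.val i
    rw [phi1_eq (a := eltJ l v) rfl]
    rcases i with i | i <;> simp [colm]

theorem chi_colI (V₁ : LieMod k 1) (l : Fin 5) (hl : (l : ℕ) ≠ 0) :
    chi V₁ (colI k l).idem = 0 := by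
  have h0 : (0 : Fin 5) ≠ l := fun h => hl (h ▸ rfl)
  have h : ∀ v : Col (phi2 k) degB (phi2_gr (k := k)) (l : ℕ), phiX k (eltI l v) 0 0 = 0 := by
    intro v
    rw [phiX_apply, phi2_eq (a := eltI l v) rfl]
    simp [colm, h0]
  show V₁.ev (phiX k (eltI l ((colI k l).take 1)) 0 0) 0 0 = 0
  rw [h, map_zero, Matrix.zero_apply]

theorem chi_colJ (V₁ : LieMod k 1) (l : Fin 5) : chi V₁ (colJ k l).idem = 0 := by
  have h : ∀ v : Col (phi1 k) degA (phi1_gr (k := k)) (l : ℕ), phiX k (eltJ l v) 0 0 = 0 := by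
    intro v
    rw [phiX_apply, phi2_eq (a := eltJ l v) rfl]
    simp
  show V₁.ev (phiX k (eltJ l ((colJ k l).take 1)) 0 0) 0 0 = 0
  rw [h, map_zero, Matrix.zero_apply]

theorem tame_big [CharZero k] {n : ℕ} (V : LieMod k n) (V₁ : LieMod k 1) :
    Tame (ModuleCat.of (Alg k) (Top V₁)) (ModuleCat.of (Alg k) (Rep (phi2 k) V)) :=
  tame_rep V _ _ (phi2_gr (k := k)) V₁ (fun i hi => colI k ⟨i, by omega⟩)
    fun _ _ h => chi_colI V₁ _ (Nat.one_le_iff_ne_zero.1 h)

theorem tame_two [CharZero k] {n : ℕ} (V : LieMod k n) (V₁ : LieMod k 1) :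
    Tame (ModuleCat.of (Alg k) (Top V₁)) (ModuleCat.of (Alg k) (Rep (phi1 k) V)) :=
  tame_rep V _ _ (phi1_gr (k := k)) V₁ (fun i hi => colJ k ⟨i, by omega⟩)
    fun _ _ _ => chi_colJ V₁ _

theorem hom_two_zero {n : ℕ} (V : LieMod k n) (V₁ : LieMod k 1)
    (f : Rep (phi1 k) V →ₗ[Alg k] Top V₁) : f = 0 :=
  hom_rep_zero V _ _ (phi1_gr (k := k)) V₁ (colJ k 0) (chi_colJ V₁ 0) f

end Vale.Agent.P176
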